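import Claimed.Agent.R316.Base.Heat.C.Semi

/-!
# Row 316, Part C of `Base/Heat/Api.lean`, file 4: annular summation   (`HC-5`)

Sub-captain: helper225.  The statements `hc_X` are VERBATIM the statements `HeatData.X` of `Base/Heat/Api.lean` (which cites them).

PLANS (`C₀' = max C₀ 0`; `(C₁, c)` from `HD.upper`, `C_V` from `HD.vol.ratio`).
* `hc_P_le_of_avg`: `hc_integral_annuli` with centre `o`, step `L`, `K = H_b(x,·)`, `w k = C₁ / Vb x √b * exp (-c ((k - C₀')₊)²)`, `a k = m (k+1)^q Vb o ((k+1) L)`: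
  for `k L ≤ d(o,y)`: `d(x,y) ≥ (k - C₀')₊ L` and `L²/b ≥ 1`.  `B(o,R) ⊆ B(x, R + C₀' L)` and `ratio` (`r = √b ≤ L`):
  `Vb o ((k+1)L) ≤ C_V ((k+1+C₀') L/√b)^{2n} Vb x √b`.  `((k-C₀')₊)² ≥ k²/2 - C₀'²`, `(k+1+C₀') ≤ (1+C₀')(k+1)`:
  `w k a k ≤ C₁ C_V e^{c C₀'²} (1+C₀')^{2n} m (L/√b)^{2n} · e^{-(c/2) k²} (k+1)^{q+2n}`, summable by `nti_summable`, sum `ntGaussSum (c/2) (q+2n)`.
* `hc_subGauss_of_avg`: `hc_subGauss_of_ball_integrals` + `hc_Vb_le`.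
* `hc_gradSq_P_le_of_avg`: `ly_bernstein` on the cylinder `B(x,√(b/2)) × [b/2,b]` for `u = P_t f`, bounded there by `hc_P_le_of_avg` with `C₀ + 1`.
-/

set_option autoImplicit false
set_option linter.unusedSectionVars false
open scoped ContDiff ComplexOrder Topology
open MeasureTheory Filter

namespace Claimed.Agent.R316

variable {V : Type} [NormedAddCommGroup V] [NormedSpace ℝ V] [MeasurableSpace V] [BorelSpace V]
variable {n : ℕ}
variable [FiniteDimensional ℝ V]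
variable {𝓜 : CMfd V (Fin n)} {g : HFam V (Fin n)}

variable (HD : HeatData 𝓜 g) {o x : V} {f f' : V → ℝ} {t s : ℝ}

include HD

omit HD in
/-- pure inequality: the Gaussian factor. -/
theorem hc_avg_exp_le {c A : ℝ} (hc : 0 < c) (_hA : 0 ≤ A) (k : ℕ) :
    Real.exp (-(c * (max ((k : ℝ) - A) 0) ^ 2))
      ≤ Real.exp (c * A ^ 2) * Real.exp (-(c / 2 * (k : ℝ) ^ 2)) := by
  rw [← Real.exp_add]
  apply Real.exp_le_exp.2
  set M : ℝ := max ((k : ℝ) - A) 0 with hM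
  have h1 : (k : ℝ) - A ≤ M := le_max_left _ _
  have h2 : 0 ≤ M := le_max_right _ _
  have hk : (0 : ℝ) ≤ k := Nat.cast_nonneg k
  have h3 : (k : ℝ) ^ 2 ≤ 2 * M ^ 2 + 2 * A ^ 2 := by
    have h4 : (k : ℝ) ^ 2 ≤ (M + A) ^ 2 := pow_le_pow_left₀ hk (by linarith) 2
    nlinarith [sq_nonneg (M - A)]
  nlinarith

theorem hc_P_le_of_avg (S : AnaSetting 𝓜 g) (C₀ : ℝ) (q : ℕ) : ∃ C : ℝ, ∀ (o x : V) (L b m : ℝ) (f : V → ℝ),
    o ∈ 𝓜.carrier → x ∈ 𝓜.carrier → hdist 𝓜 g o x ≤ C₀ * L → 0 < b → b ≤ L ^ 2 → 0 < L →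
    AEStronglyMeasurable f (hvol 𝓜 g) → (∀ y ∈ 𝓜.carrier, 0 ≤ f y) →
    (∀ R : ℝ, L ≤ R → IntegrableOn f (hball 𝓜 g o R) (hvol 𝓜 g) ∧
      ∫ y in hball 𝓜 g o R, f y ∂(hvol 𝓜 g) ≤ m * (R / L) ^ q * Vb 𝓜 g o R) →
    Integrable (fun y => HD.Hk b x y * f y) (hvol 𝓜 g) ∧
    HD.P b f x ≤ C * (L / Real.sqrt b) ^ (2 * n) * m := by
  have hg : IsMetric 𝓜 g := S.kahler.toIsMetric
  obtain ⟨C₁, c, hc, hup⟩ := HD.upper
  obtain ⟨CV, hCV1, hratio⟩ := HD.vol.ratio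
  set A : ℝ := max C₀ 0 with hAdef
  have hA0 : 0 ≤ A := le_max_right _ _
  refine ⟨C₁ * CV * Real.exp (c * A ^ 2) * (1 + A) ^ (2 * n) * ntGaussSum (c / 2) (q + 2 * n), ?_⟩
  intro o x L b m f ho hx hox hb hbL hL hf hf0 hav
  set sb : ℝ := Real.sqrt b with hsbdef
  have hsb : 0 < sb := Real.sqrt_pos.2 hb
  have hsbL : sb ≤ L := by
    rw [← Real.sqrt_sq hL.le]
    exact Real.sqrt_le_sqrt hbL
  have hVx : 0 < Vb 𝓜 g x sb := HD.vol.pos x hx sb hsb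
  have hC₁ : 0 < C₁ := by
    have h1 := hup b hb x hx x hx
    have h2 := HD.pos b hb x hx x hx
    by_contra hcon
    push Not at hcon
    have h3 : C₁ / Vb 𝓜 g x sb * Real.exp (-(c * hdist 𝓜 g x x ^ 2 / b)) ≤ 0 :=
      mul_nonpos_of_nonpos_of_nonneg (div_nonpos_of_nonpos_of_nonneg hcon hVx.le) (Real.exp_pos _).le
    linarith
  have hm0 : 0 ≤ m := by
    obtain ⟨-, h2⟩ := hav L le_rfl
    have h3 : 0 ≤ ∫ y in hball 𝓜 g o L, f y ∂(hvol 𝓜 g) :=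
      integral_nonneg_of_ae (ae_restrict_of_ae (ae_hvol_of_forall_mem hf0))
    rw [div_self hL.ne', one_pow, mul_one] at h2
    have h4 := HD.vol.pos o ho L hL
    by_contra hcon
    push Not at hcon
    nlinarith
  have hoxA : hdist 𝓜 g o x ≤ A * L :=
    hox.trans (mul_le_mul_of_nonneg_right (le_max_left _ _) hL.le)
  set w : ℕ → ℝ := fun k => C₁ / Vb 𝓜 g x sb * Real.exp (-(c * (max ((k : ℝ) - A) 0) ^ 2)) with hw
  set a : ℕ → ℝ := fun k => m * ((k : ℝ) + 1) ^ q * Vb 𝓜 g o (((k : ℝ) + 1) * L) with ha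
  have hw0 : ∀ k, 0 ≤ w k := fun k => by positivity
  have hkL : ∀ k : ℕ, L ≤ ((k : ℝ) + 1) * L := fun k => by
    have : (0 : ℝ) ≤ k := Nat.cast_nonneg k
    nlinarith
  have hKw : ∀ y ∈ 𝓜.carrier, HD.Hk b x y ≤ w ⌊hdist 𝓜 g o y / L⌋₊ := by
    intro y hy
    refine (hup b hb x hx y hy).trans ?_
    refine mul_le_mul_of_nonneg_left (Real.exp_le_exp.2 ?_) (by positivity)
    set k : ℕ := ⌊hdist 𝓜 g o y / L⌋₊ with hk
    have hk1 : (k : ℝ) ≤ hdist 𝓜 g o y / L :=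
      Nat.floor_le (div_nonneg (hdist_nonneg _ _ _ _) hL.le)
    rw [le_div_iff₀ hL] at hk1
    have htri := hdist_triangle hg S.conn ho hx hy
    have hd0 := hdist_nonneg 𝓜 g x y
    have h1 : max ((k : ℝ) - A) 0 * L ≤ hdist 𝓜 g x y := by
      rcases le_total ((k : ℝ) - A) 0 with h | h
      · rw [max_eq_right h, zero_mul]
        exact hd0
      · rw [max_eq_left h]
        nlinarith
    have hM0 : 0 ≤ max ((k : ℝ) - A) 0 := le_max_right _ _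
    have h2 : (max ((k : ℝ) - A) 0) ^ 2 * b ≤ hdist 𝓜 g x y ^ 2 := by
      calc (max ((k : ℝ) - A) 0) ^ 2 * b ≤ (max ((k : ℝ) - A) 0) ^ 2 * L ^ 2 :=
            mul_le_mul_of_nonneg_left hbL (sq_nonneg _)
        _ = (max ((k : ℝ) - A) 0 * L) ^ 2 := by ring
        _ ≤ hdist 𝓜 g x y ^ 2 := pow_le_pow_left₀ (by positivity) h1 2
    have h3 : (max ((k : ℝ) - A) 0) ^ 2 ≤ hdist 𝓜 g x y ^ 2 / b := (le_div_iff₀ hb).2 h2
    have h4 := mul_le_mul_of_nonneg_left h3 hc.le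
    rw [neg_le_neg_iff, mul_div_assoc]
    exact h4
  have hint : ∀ k : ℕ, IntegrableOn f (hball 𝓜 g o (((k : ℝ) + 1) * L)) (hvol 𝓜 g) := fun k =>
    (hav _ (hkL k)).1
  have haa : ∀ k : ℕ, ∫ y in hball 𝓜 g o (((k : ℝ) + 1) * L), f y ∂(hvol 𝓜 g) ≤ a k := fun k => by
    have := (hav _ (hkL k)).2
    rwa [mul_div_assoc, div_self hL.ne', mul_one] at this
  set D : ℝ := C₁ * CV * Real.exp (c * A ^ 2) * (1 + A) ^ (2 * n) * m * (L / sb) ^ (2 * n) with hD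
  have hD0 : 0 ≤ D := by
    have : 0 < CV := by linarith
    positivity
  have hle : ∀ k : ℕ, w k * a k
      ≤ D * (Real.exp (-(c / 2 * (k : ℝ) ^ 2)) * ((k : ℝ) + 1) ^ (q + 2 * n)) := by
    intro k
    have hk0 : (0 : ℝ) ≤ k := Nat.cast_nonneg k
    have hCV0 : 0 < CV := by linarith
    have hLs : 0 < L / sb := div_pos hL hsb
    have h1 : Vb 𝓜 g o (((k : ℝ) + 1) * L) ≤ Vb 𝓜 g x (((k : ℝ) + 1 + A) * L) :=
      ENNReal.toReal_mono (HD.vol.finite x hx _)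
        (measure_mono (hball_subset_hball hg S.conn ho hx (by nlinarith)))
    have h2 := hratio x hx sb (((k : ℝ) + 1 + A) * L) hsb (by nlinarith)
    have h3 : (((k : ℝ) + 1 + A) * L / sb) ^ (2 * n)
        ≤ (1 + A) ^ (2 * n) * ((k : ℝ) + 1) ^ (2 * n) * (L / sb) ^ (2 * n) := by
      rw [← mul_pow, ← mul_pow, mul_div_assoc]
      refine pow_le_pow_left₀ (by positivity) ?_ _
      refine mul_le_mul_of_nonneg_right ?_ hLs.le
      nlinarith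
    have h4 : Vb 𝓜 g o (((k : ℝ) + 1) * L)
        ≤ CV * ((1 + A) ^ (2 * n) * ((k : ℝ) + 1) ^ (2 * n) * (L / sb) ^ (2 * n)) * Vb 𝓜 g x sb :=
      h1.trans (h2.trans (mul_le_mul_of_nonneg_right
        (mul_le_mul_of_nonneg_left h3 hCV0.le) hVx.le))
    have h5 := hc_avg_exp_le hc hA0 k
    calc w k * a k
        = (C₁ / Vb 𝓜 g x sb * (m * ((k : ℝ) + 1) ^ q))
            * (Real.exp (-(c * (max ((k : ℝ) - A) 0) ^ 2)) * Vb 𝓜 g o (((k : ℝ) + 1) * L)) := by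
          simp only [hw, ha]
          ring
      _ ≤ (C₁ / Vb 𝓜 g x sb * (m * ((k : ℝ) + 1) ^ q))
            * ((Real.exp (c * A ^ 2) * Real.exp (-(c / 2 * (k : ℝ) ^ 2)))
              * (CV * ((1 + A) ^ (2 * n) * ((k : ℝ) + 1) ^ (2 * n) * (L / sb) ^ (2 * n))
                * Vb 𝓜 g x sb)) := by
          refine mul_le_mul_of_nonneg_left ?_ (by positivity)
          exact mul_le_mul h5 h4 ENNReal.toReal_nonneg (by positivity)
      _ = D * (Real.exp (-(c / 2 * (k : ℝ) ^ 2)) * ((k : ℝ) + 1) ^ (q + 2 * n)) := by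
          rw [hD, pow_add]
          field_simp
  have hsum := (nti_summable (half_pos hc) (q + 2 * n)).mul_left D
  have ha0 : ∀ k, 0 ≤ a k := fun k => by
    have : 0 ≤ Vb 𝓜 g o (((k : ℝ) + 1) * L) := ENNReal.toReal_nonneg
    positivity
  have hs : Summable fun k => w k * a k :=
    Summable.of_nonneg_of_le (fun k => mul_nonneg (hw0 k) (ha0 k)) hle hsum
  obtain ⟨hI, hIle⟩ := hc_integral_annuli S o hL hf
    (hc_measurable_Hk_right HD hb x).aestronglyMeasurable hf0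
    (fun y _ => hc_Hk_nonneg HD hb x y) hw0 hKw hint haa hs
  refine ⟨hI, ?_⟩
  calc HD.P b f x ≤ ∑' k, w k * a k := hIle
    _ ≤ ∑' k : ℕ, D * (Real.exp (-(c / 2 * (k : ℝ) ^ 2)) * ((k : ℝ) + 1) ^ (q + 2 * n)) :=
        hs.tsum_le_tsum hle hsum
    _ = D * ntGaussSum (c / 2) (q + 2 * n) := by
        rw [tsum_mul_left]
        rfl
    _ = _ := by
        rw [hD]
        ring

/-- the constant `m` of the averages is nonnegative. -/
theorem hc_avg_m_nonneg {q : ℕ} {L m : ℝ} (ho : o ∈ 𝓜.carrier) (hL : 0 < L)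
    (hf0 : ∀ y ∈ 𝓜.carrier, 0 ≤ f y)
    (hA : ∀ R : ℝ, L ≤ R → IntegrableOn f (hball 𝓜 g o R) (hvol 𝓜 g) ∧
      ∫ y in hball 𝓜 g o R, f y ∂(hvol 𝓜 g) ≤ m * (R / L) ^ q * Vb 𝓜 g o R) : 0 ≤ m := by
  obtain ⟨-, h2⟩ := hA L le_rfl
  have h3 : 0 ≤ ∫ y in hball 𝓜 g o L, f y ∂(hvol 𝓜 g) :=
    integral_nonneg_of_ae (ae_restrict_of_ae (ae_hvol_of_forall_mem hf0))
  rw [div_self hL.ne', one_pow, mul_one] at h2
  have h4 := HD.vol.pos o ho L hL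
  by_contra hcon
  push Not at hcon
  nlinarith

/-- the data of `hc_P_le_of_avg` are in the class `SubGauss`. -/
theorem hc_subGauss_of_avg (S : AnaSetting 𝓜 g) {q : ℕ} {L m : ℝ} (ho : o ∈ 𝓜.carrier) (hL : 0 < L)
    (hf : AEStronglyMeasurable f (hvol 𝓜 g)) (hf0 : ∀ y ∈ 𝓜.carrier, 0 ≤ f y)
    (hA : ∀ R : ℝ, L ≤ R → IntegrableOn f (hball 𝓜 g o R) (hvol 𝓜 g) ∧
      ∫ y in hball 𝓜 g o R, f y ∂(hvol 𝓜 g) ≤ m * (R / L) ^ q * Vb 𝓜 g o R) :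
    SubGauss 𝓜 g o f := by
  obtain ⟨C, hC0, hC⟩ := nt_Vb_le HD.vol ho
  have hm0 : 0 ≤ m := hc_avg_m_nonneg HD ho hL hf0 hA
  set L₁ : ℝ := max 1 L with hL₁
  have hL₁1 : 1 ≤ L₁ := le_max_left _ _
  have hL₁L : L ≤ L₁ := le_max_right _ _
  refine hc_subGauss_of_ball_integrals HD S ho hf
    (A := m * (L₁ / L) ^ q * (C * L₁ ^ (2 * n))) (q := q + 2 * n) ?_
  intro R hR
  have hR0 : 0 < R := by linarith
  have hRR : R ≤ R * L₁ := le_mul_of_one_le_right hR0.le hL₁1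
  have hR' : L ≤ R * L₁ := hL₁L.trans (le_mul_of_one_le_left (by linarith) hR)
  obtain ⟨h1, h2⟩ := hA (R * L₁) hR'
  have hsub : hball 𝓜 g o R ⊆ hball 𝓜 g o (R * L₁) := hball_mono _ _ _ hRR
  refine ⟨h1.mono_set hsub, ?_⟩
  calc ∫ y in hball 𝓜 g o R, |f y| ∂(hvol 𝓜 g)
      = ∫ y in hball 𝓜 g o R, f y ∂(hvol 𝓜 g) :=
        integral_congr_ae (ae_restrict_of_ae
          (ae_hvol_of_forall_mem fun y hy => abs_of_nonneg (hf0 y hy)))
    _ ≤ ∫ y in hball 𝓜 g o (R * L₁), f y ∂(hvol 𝓜 g) :=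
        setIntegral_mono_set h1 (ae_restrict_of_ae (ae_hvol_of_forall_mem hf0)) hsub.eventuallyLE
    _ ≤ m * (R * L₁ / L) ^ q * Vb 𝓜 g o (R * L₁) := h2
    _ ≤ m * (R * L₁ / L) ^ q * (C * (R * L₁) ^ (2 * n)) :=
        mul_le_mul_of_nonneg_left (hC _ (hR.trans hRR)) (by positivity)
    _ = m * (L₁ / L) ^ q * (C * L₁ ^ (2 * n)) * R ^ (q + 2 * n) := by
        rw [mul_div_assoc, mul_pow, mul_pow, pow_add]
        ring

theorem hc_gradSq_P_le_of_avg (S : AnaSetting 𝓜 g) (C₀ : ℝ) (q : ℕ) :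
    ∃ C : ℝ, ∀ (o x : V) (L b m : ℝ) (f : V → ℝ),
    o ∈ 𝓜.carrier → x ∈ 𝓜.carrier → hdist 𝓜 g o x ≤ C₀ * L → 0 < b → b ≤ L ^ 2 → 0 < L →
    AEStronglyMeasurable f (hvol 𝓜 g) → (∀ y ∈ 𝓜.carrier, 0 ≤ f y) →
    (∀ R : ℝ, L ≤ R → IntegrableOn f (hball 𝓜 g o R) (hvol 𝓜 g) ∧
      ∫ y in hball 𝓜 g o R, f y ∂(hvol 𝓜 g) ≤ m * (R / L) ^ q * Vb 𝓜 g o R) →
    gradSq 𝓜 g (HD.P b f) x ≤ (C / Real.sqrt b * (L / Real.sqrt b) ^ (2 * n) * m) ^ 2 := by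
  have hg : IsMetric 𝓜 g := S.kahler.toIsMetric
  obtain ⟨CB, hbern⟩ := ly_bernstein S
  obtain ⟨CP, hP⟩ := hc_P_le_of_avg HD S (C₀ + 1) q
  set CB' : ℝ := max CB 0 with hCB'
  set CP' : ℝ := max CP 0 with hCP'
  have hCB0 : 0 ≤ CB' := le_max_right _ _
  have hCP0 : 0 ≤ CP' := le_max_right _ _
  refine ⟨Real.sqrt (2 * CB') * (CP' * 2 ^ n), ?_⟩
  intro o x L b m f ho hx hox hb hbL hL hf hf0 hav
  have hsG : SubGauss 𝓜 g o f := hc_subGauss_of_avg HD S ho hL hf hf0 hav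
  have hm0 : 0 ≤ m := hc_avg_m_nonneg HD ho hL hf0 hav
  set R : ℝ := Real.sqrt (b / 2) with hRdef
  have hR : 0 < R := Real.sqrt_pos.2 (half_pos hb)
  have hR2 : R ^ 2 = b / 2 := Real.sq_sqrt (half_pos hb).le
  have hRL : R ≤ L := by
    rw [← Real.sqrt_sq hL.le]
    exact Real.sqrt_le_sqrt (by linarith)
  have hsb : 0 < Real.sqrt b := Real.sqrt_pos.2 hb
  set X : ℝ := (L / Real.sqrt b) ^ (2 * n) with hX
  have hX0 : 0 ≤ X := by positivity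
  set A : ℝ := CP' * 2 ^ n * X * m with hA
  have hsol : IsHeatSol 𝓜 g (Set.Icc (b - R ^ 2) b) (fun t => HD.P t f) :=
    ly_heatSol_mono (hc_isHeatSol_P HD ho hsG) (fun t ht => by
      have := ht.1
      rw [hR2] at this
      show 0 < t
      linarith)
  have hbd : ∀ t ∈ Set.Icc (b - R ^ 2) b, ∀ y ∈ hball 𝓜 g x R, |HD.P t f y| ≤ A := by
    intro t ht y hy
    have ht1 : b / 2 ≤ t := by
      have := ht.1
      rw [hR2] at this
      linarith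
    have ht0 : 0 < t := by linarith
    rw [abs_of_nonneg (hc_P_nonneg HD hf0 ht0 y)]
    have hoy : hdist 𝓜 g o y ≤ (C₀ + 1) * L := by
      have := hdist_triangle hg S.conn ho hx hy.1
      have h2 := hy.2
      nlinarith
    have h1 := (hP o y L t m f ho hy.1 hoy ht0 (ht.2.trans hbL) hL hf hf0 hav).2
    have h2 : (L / Real.sqrt t) ^ (2 * n) ≤ 2 ^ n * X := by
      have e1 : (L / Real.sqrt t) ^ (2 * n) = (L ^ 2 / t) ^ n := by
        rw [pow_mul, div_pow, Real.sq_sqrt ht0.le]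
      have e2 : X = (L ^ 2 / b) ^ n := by
        rw [hX, pow_mul, div_pow, Real.sq_sqrt hb.le]
      rw [e1, e2, ← mul_pow]
      refine pow_le_pow_left₀ (by positivity) ?_ n
      calc L ^ 2 / t ≤ L ^ 2 / (b / 2) := div_le_div_of_nonneg_left (sq_nonneg L) (half_pos hb) ht1
        _ = 2 * (L ^ 2 / b) := by field_simp
    have hY0 : 0 ≤ (L / Real.sqrt t) ^ (2 * n) := by positivity
    calc HD.P t f y ≤ CP * (L / Real.sqrt t) ^ (2 * n) * m := h1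
      _ ≤ CP' * (L / Real.sqrt t) ^ (2 * n) * m :=
          mul_le_mul_of_nonneg_right (mul_le_mul_of_nonneg_right (le_max_left _ _) hY0) hm0
      _ ≤ CP' * (2 ^ n * X) * m :=
          mul_le_mul_of_nonneg_right (mul_le_mul_of_nonneg_left h2 hCP0) hm0
      _ = A := by
          rw [hA]
          ring
  have h3 := hbern x b R A (fun t => HD.P t f) hx hR hsol hbd
  have e1 : Real.sqrt (2 * CB') ^ 2 = 2 * CB' := Real.sq_sqrt (by positivity)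
  have e2 : Real.sqrt b ^ 2 = b := Real.sq_sqrt hb.le
  calc gradSq 𝓜 g (HD.P b f) x ≤ CB * A ^ 2 / R ^ 2 := h3
    _ ≤ CB' * A ^ 2 / R ^ 2 :=
        div_le_div_of_nonneg_right (mul_le_mul_of_nonneg_right (le_max_left _ _) (sq_nonneg A))
          (sq_nonneg R)
    _ = (Real.sqrt (2 * CB') * (CP' * 2 ^ n) / Real.sqrt b * X * m) ^ 2 := by
        have e3 : (Real.sqrt (2 * CB') * (CP' * 2 ^ n) / Real.sqrt b * X * m) ^ 2
            = Real.sqrt (2 * CB') ^ 2 * (CP' * 2 ^ n) ^ 2 / Real.sqrt b ^ 2 * X ^ 2 * m ^ 2 := by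
          ring
        rw [e3, e1, e2, hR2, hA]
        field_simp

end Claimed.Agent.R316
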