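import Claimed.Agent.R316.Base.Heat.C.Semi

/-!
# Row 316, Part C of `Base/Heat/Api.lean`, file 5: two-sided cutoffs, sub-mean value inequality, Duhamel   (`HC-6`)

Sub-captain: helper225.  `hcLapCutoffs` is VERBATIM `LapCutoffs` of `Base/Heat/Api.lean` (defeq by unfolding); the statements `hc_X` are verbatim the statements `X` / `HeatData.X` there.

PLANS.
* `hc_lapCutoffs_of_dyadicCutoffs`: `φ = 1 - v_N`; `|Δφ| ≤ n C/N²` by `ly_lap_le_of_ddc_le` for `v` and `-v`.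
* `hc_lapCutoffs_of_prelimData`: `φ = η (u/(Cu N))`, `η` from `ly_exists_profile` (`1` on `(-∞,2]`, `0` on `[3,∞)`): `d ≤ N ⟹ u ≤ Cu (1+N) ≤ 2 Cu N`; `d ≥ 3 Cu² N ⟹ u ≥ 3 Cu N`;
  `lap_comp`, `gradSq_comp`; where `η' ≠ 0` or `η'' ≠ 0`: `u ≥ 2 Cu N`, so `|Δu| ≤ n Cu/u ≤ n/(2N)`.
* `hc_cut_identity` (`k = H_τ(x,·)`, smooth by `HD.smooth`, `HD.symm`): Green II twice (`integral_mul_lap_comm`: test functions `φU` and `kφ`) and `lap_mul` for `kφ`.
* `hc_far_grad_bound`: as `ly_far_bound` (`Base/LiYau/Reg.lean`) from `HD.grad`, `hc_Vb_le_Vb`, `HD.vol.ratio`.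
* `hc_cut_error`: `|Δφ_N| ≤ C/N²`, `|⟨∂k,∂φ_N⟩| ≤ √(gradSq k) C/N` (`abs_gradInner_le`), both vanish where `d(o,y) < N`.
* `hc_submean`, `hc_duhamel`: `ly_duhamel (hcCore HD S)` with `F s = φ_N U`; `N → ∞` by dominated convergence.
-/

set_option autoImplicit false
set_option linter.unusedSectionVars false
open scoped ContDiff ComplexOrder Topology
open MeasureTheory Filter

namespace Claimed.Agent.R316

variable {V : Type} [NormedAddCommGroup V] [NormedSpace ℝ V] [MeasurableSpace V] [BorelSpace V]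
variable {n : ℕ}
variable [FiniteDimensional ℝ V]
variable {𝓜 : CMfd V (Fin n)} {g : HFam V (Fin n)}

/-- VERBATIM `LapCutoffs`. -/
def hcLapCutoffs (𝓜 : CMfd V (Fin n)) (g : HFam V (Fin n)) (o : V) : Prop :=
  ∃ C : ℝ, ∀ N : ℝ, 1 ≤ N → ∃ φ : V → ℝ, 𝓜.Smooth φ ∧ (∀ y ∈ 𝓜.carrier, 0 ≤ φ y ∧ φ y ≤ 1) ∧
    (∀ y ∈ 𝓜.carrier, hdist 𝓜 g o y ≤ N → φ y = 1) ∧
    (∀ y ∈ 𝓜.carrier, C * N ≤ hdist 𝓜 g o y → φ y = 0) ∧
    (∀ y ∈ 𝓜.carrier, gradSq 𝓜 g φ y ≤ (C / N) ^ 2) ∧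
    (∀ y ∈ 𝓜.carrier, |lap 𝓜 g φ y| ≤ C / N ^ 2)

/-- two-sided Hessian bounds give a bound of the Laplacian. -/
theorem hc_abs_lap_le (hm : IsMetric 𝓜 g) {v c : V → ℝ} (h1 : leF 𝓜 (ddc v) (smulF c g))
    (h2 : leF 𝓜 (smulF (fun y => - c y) g) (ddc v)) {y : V} (hy : y ∈ 𝓜.carrier) :
    |lap 𝓜 g v y| ≤ c y * n := by
  have a1 : tr 𝓜 g (ddc v) y ≤ tr 𝓜 g (smulF c g) y := h1.tr_le hm hy
  have a2 : tr 𝓜 g (smulF (fun y => - c y) g) y ≤ tr 𝓜 g (ddc v) y := h2.tr_le hm hy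
  rw [tr_smulF g g _ hy, tr_self hm hy] at a1 a2
  simp only [Fintype.card_fin] at a1 a2
  rw [abs_le]
  constructor
  · have : -(c y * n) = - c y * n := by ring
    rw [this]; exact a2
  · exact a1

theorem hc_lapCutoffs_of_dyadicCutoffs (S : AnaSetting 𝓜 g) {o : V} (ho : o ∈ 𝓜.carrier)
    (DC : DyadicCutoffs 𝓜 g o) : hcLapCutoffs 𝓜 g o := by
  obtain ⟨C, hC⟩ := DC
  have hm := S.kahler.toIsMetric
  refine ⟨max 2 (max |C| (|C| * n)), fun N hN => ?_⟩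
  have hN0 : 0 < N := by linarith
  obtain ⟨v, hv, hv01, hv0, hv1, hvg, hvu, hvl⟩ := hC N hN
  have e : (fun y => 1 - v y) = fun y => (fun z => - v z) y + 1 := by funext y; ring
  refine ⟨fun y => 1 - v y, (CMfd.smooth_const 1).sub hv, ?_, ?_, ?_, ?_, ?_⟩
  · intro y hy
    have := hv01 y hy
    constructor <;> linarith [this.1, this.2]
  · intro y hy hd
    show 1 - v y = 1
    rw [hv0 y hy hd]; ring
  · intro y hy hd
    show 1 - v y = 0
    rw [hv1 y hy ?_]; · ring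
    refine le_trans ?_ hd
    gcongr
    exact le_max_left _ _
  · intro y hy
    rw [e, gradSq_add_const, gradSq_neg]
    refine (hvg y hy).trans ?_
    rw [← sq_abs (C / N), abs_div, abs_of_pos hN0]
    gcongr
    exact (le_max_left _ _).trans (le_max_right _ _)
  · intro y hy
    rw [e, lap_add_const, lap_neg, abs_neg]
    refine (hc_abs_lap_le hm hvu hvl hy).trans ?_
    have h1 : C / N ^ 2 * n = C * n / N ^ 2 := by ring
    rw [h1]
    gcongr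
    refine le_trans ?_ ((le_max_right _ _).trans (le_max_right _ _))
    gcongr
    exact le_abs_self _

theorem hc_lapCutoffs_of_prelimData (S : AnaSetting 𝓜 g) {o : V} (ho : o ∈ 𝓜.carrier)
    (PD : PrelimData 𝓜 g o) : hcLapCutoffs 𝓜 g o := by
  obtain ⟨η, C₀, hηs, hη01, hη1, hη0, -, -, hη'b, hη''b⟩ := ly_exists_profile
  have hm : IsMetric 𝓜 g := S.kahler.toIsMetric
  have hC₀ : 0 ≤ C₀ := (abs_nonneg _).trans (hη'b 0)
  have hCu := PD.Cu_pos
  have hnear' : ∀ s : ℝ, s < 2 → deriv η s = 0 ∧ deriv (deriv η) s = 0 := by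
    intro s hs
    have h0 : η =ᶠ[𝓝 s] fun _ => 1 := by
      filter_upwards [Iio_mem_nhds hs] with y hy using hη1 y (le_of_lt hy)
    have h1 : deriv η =ᶠ[𝓝 s] fun _ => 0 := by
      have := h0.deriv
      simpa using this
    refine ⟨by simpa using h1.self_of_nhds, ?_⟩
    rw [h1.deriv_eq]; simp
  refine ⟨max (3 * PD.Cu ^ 2) (max C₀ (C₀ * n / (2 * PD.Cu) + C₀)), fun N hN => ?_⟩
  have hN0 : 0 < N := by linarith
  set c : ℝ := 1 / (PD.Cu * N) with hc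
  have hc0 : 0 < c := by positivity
  set v : V → ℝ := fun y => c * PD.u y with hv
  have hvs : 𝓜.Smooth v := PD.u_smooth.const_mul c
  have hgv : ∀ y ∈ 𝓜.carrier, gradSq 𝓜 g v y = c ^ 2 * gradSq 𝓜 g PD.u y := fun y hy =>
    gradSq_const_mul g c (PD.u_smooth.diffAt hy)
  have hlv : ∀ y ∈ 𝓜.carrier, lap 𝓜 g v y = c * lap 𝓜 g PD.u y := fun y hy =>
    lap_const_mul g c (PD.u_smooth.c2At hy)
  have hgφ : ∀ y ∈ 𝓜.carrier, gradSq 𝓜 g (fun y => η (v y)) y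
      = deriv η (v y) ^ 2 * (c ^ 2 * gradSq 𝓜 g PD.u y) := fun y hy => by
    rw [gradSq_comp g hy (hηs.differentiable (by simp) _) (hvs.diffAt hy), hgv y hy]
  have hlφ : ∀ y ∈ 𝓜.carrier, lap 𝓜 g (fun y => η (v y)) y =
      deriv η (v y) * (c * lap 𝓜 g PD.u y) + deriv (deriv η) (v y) * (c ^ 2 * gradSq 𝓜 g PD.u y) :=
    fun y hy => by
      rw [lap_comp g hy (hηs.contDiffAt.of_le (by norm_cast)) (hvs.c2At hy), hgv y hy, hlv y hy]
  have hcg : ∀ y ∈ 𝓜.carrier, c ^ 2 * gradSq 𝓜 g PD.u y ≤ 1 / N ^ 2 := by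
    intro y hy
    calc c ^ 2 * gradSq 𝓜 g PD.u y ≤ c ^ 2 * PD.Cu ^ 2 := by gcongr; exact PD.u_grad y hy
      _ = 1 / N ^ 2 := by rw [hc]; field_simp
  have hcg0 : ∀ y ∈ 𝓜.carrier, 0 ≤ c ^ 2 * gradSq 𝓜 g PD.u y := fun y hy =>
    mul_nonneg (by positivity) (gradSq_nonneg hm _ hy)
  refine ⟨fun y => η (v y), hvs.comp hηs, fun y _ => hη01 _, ?_, ?_, ?_, ?_⟩
  · intro y hy hd
    apply hη1
    show c * PD.u y ≤ 2
    have h1 := PD.u_upper y hy
    have h2 : PD.u y ≤ 2 * (PD.Cu * N) := by nlinarith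
    rw [hc, one_div, inv_mul_le_iff₀ (by positivity)]
    linarith
  · intro y hy hd
    apply hη0
    show 3 ≤ c * PD.u y
    have h1 := PD.u_lower y hy
    have h3 : 3 * PD.Cu ^ 2 * N ≤ hdist 𝓜 g o y := by
      refine le_trans ?_ hd
      gcongr
      exact le_max_left _ _
    have h2 : 3 * (PD.Cu * N) ≤ PD.u y := by
      refine le_trans ?_ h1
      rw [le_inv_mul_iff₀ hCu]
      nlinarith
    rw [hc, one_div, le_inv_mul_iff₀ (by positivity)]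
    linarith
  · intro y hy
    rw [hgφ y hy]
    have h1 : deriv η (v y) ^ 2 ≤ C₀ ^ 2 := by
      rw [← sq_abs]; gcongr; exact hη'b _
    calc deriv η (v y) ^ 2 * (c ^ 2 * gradSq 𝓜 g PD.u y) ≤ C₀ ^ 2 * (1 / N ^ 2) :=
          mul_le_mul h1 (hcg y hy) (hcg0 y hy) (by positivity)
      _ = (C₀ / N) ^ 2 := by ring
      _ ≤ _ := by
        gcongr
        exact (le_max_left _ _).trans (le_max_right _ _)
  · intro y hy
    rw [hlφ y hy]
    rcases lt_or_ge (v y) 2 with h2 | h2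
    · rw [(hnear' _ h2).1, (hnear' _ h2).2]
      simp only [zero_mul, add_zero, abs_zero]
      have : 0 ≤ max (3 * PD.Cu ^ 2) (max C₀ (C₀ * n / (2 * PD.Cu) + C₀)) :=
        le_trans (by positivity) (le_max_left _ _)
      positivity
    · have hu2 : 2 * (PD.Cu * N) ≤ PD.u y := by
        have : 2 ≤ c * PD.u y := h2
        rw [hc, one_div, le_inv_mul_iff₀ (by positivity)] at this
        linarith
      have hu0 : 0 < PD.u y := lt_of_lt_of_le (by positivity) hu2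
      have hl : |lap 𝓜 g PD.u y| ≤ PD.Cu / PD.u y * n :=
        hc_abs_lap_le hm PD.u_dd_upper PD.u_dd_lower hy
      have hl2 : PD.Cu / PD.u y ≤ 1 / (2 * N) := by
        rw [div_le_div_iff₀ hu0 (by positivity)]
        linarith
      have hl3 : |c * lap 𝓜 g PD.u y| ≤ n / (2 * PD.Cu) * (1 / N ^ 2) := by
        rw [abs_mul, abs_of_pos hc0]
        calc c * |lap 𝓜 g PD.u y| ≤ c * (1 / (2 * N) * n) := by
              gcongr
              exact hl.trans (by gcongr)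
          _ = _ := by rw [hc]; field_simp
      have t1 : |deriv η (v y) * (c * lap 𝓜 g PD.u y)| ≤ C₀ * (n / (2 * PD.Cu) * (1 / N ^ 2)) := by
        rw [abs_mul]
        exact mul_le_mul (hη'b _) hl3 (abs_nonneg _) hC₀
      have t2 : |deriv (deriv η) (v y) * (c ^ 2 * gradSq 𝓜 g PD.u y)| ≤ C₀ * (1 / N ^ 2) := by
        rw [abs_mul, abs_of_nonneg (hcg0 y hy)]
        exact mul_le_mul (hη''b _) (hcg y hy) (hcg0 y hy) hC₀
      calc _ ≤ _ := abs_add_le _ _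
        _ ≤ C₀ * (n / (2 * PD.Cu) * (1 / N ^ 2)) + C₀ * (1 / N ^ 2) := add_le_add t1 t2
        _ = (C₀ * n / (2 * PD.Cu) + C₀) / N ^ 2 := by ring
        _ ≤ _ := by
          gcongr
          exact (le_max_right _ _).trans (le_max_right _ _)

variable (HD : HeatData 𝓜 g) {o x : V} {f f' : V → ℝ} {t s : ℝ}

include HD

/-- the kernel with the first space variable fixed is smooth. -/
theorem hc_smooth_Hk (ht : 0 < t) (hx : x ∈ 𝓜.carrier) : 𝓜.Smooth (HD.Hk t x) :=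
  ((HD.smooth x hx).smooth (t := t) ht).congr fun y _ => HD.symm t y x

/-- **the commutator identity**: `P_τ Δ(φU) = P_τ (φ ΔU) - ∫ U (k Δφ + 2⟨∂k,∂φ⟩)`, `k = H_τ(x,·)`. -/
theorem hc_cut_identity (S : AnaSetting 𝓜 g) {U φ : V → ℝ} (hU : 𝓜.Smooth U) (hφ : 𝓜.Smooth φ)
    (hc : 𝓜.CSupp φ) {τ : ℝ} (hτ : 0 < τ) (hx : x ∈ 𝓜.carrier) :
    HD.P τ (lap 𝓜 g (fun y => φ y * U y)) x = HD.P τ (fun y => φ y * lap 𝓜 g U y) x
      - ∫ y, U y * (HD.Hk τ x y * lap 𝓜 g φ y + 2 * gradInner 𝓜 g (HD.Hk τ x) φ y) ∂(hvol 𝓜 g) := by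
  have hK := S.kahler
  have hm : IsMetric 𝓜 g := hK.toIsMetric
  set k : V → ℝ := HD.Hk τ x with hk
  have hks : 𝓜.Smooth k := hc_smooth_Hk HD hτ hx
  -- Green for `φ U` and `k`
  have g1 : ∫ y, (φ y * U y) * lap 𝓜 g k y ∂(hvol 𝓜 g) = ∫ y, k y * lap 𝓜 g (fun y => φ y * U y) y ∂(hvol 𝓜 g) :=
    integral_mul_lap_comm hK (hφ.mul hU) (hc.mul_right U) hks
  -- Green for `k φ` and `U`
  have g2 : ∫ y, (k y * φ y) * lap 𝓜 g U y ∂(hvol 𝓜 g) = ∫ y, U y * lap 𝓜 g (fun y => k y * φ y) y ∂(hvol 𝓜 g) :=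
    integral_mul_lap_comm hK (hks.mul hφ) (hc.mul_left k) hU
  have i1 : Integrable (fun y => (φ y * U y) * lap 𝓜 g k y) (hvol 𝓜 g) :=
    integrable_hvol_of_csupp hm (((hφ.mul hU).mul (smooth_lap hm hks)).continuousOn)
      ((hc.mul_right U).mul_right _)
  have i2 : Integrable (fun y => U y * (k y * lap 𝓜 g φ y + 2 * gradInner 𝓜 g k φ y)) (hvol 𝓜 g) := by
    refine integrable_hvol_of_csupp hm ?_ ?_
    · exact (hU.mul ((hks.mul (smooth_lap hm hφ)).add ((smooth_gradInner hm hks hφ).const_mul 2))).continuousOn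
    · exact CMfd.CSupp.mul_left (((hc.lap g).mul_left k).add ((hc.gradInner_right g k).mul_left _)) U
  have e : ∫ y, U y * lap 𝓜 g (fun y => k y * φ y) y ∂(hvol 𝓜 g)
      = (∫ y, (φ y * U y) * lap 𝓜 g k y ∂(hvol 𝓜 g))
        + ∫ y, U y * (k y * lap 𝓜 g φ y + 2 * gradInner 𝓜 g k φ y) ∂(hvol 𝓜 g) := by
    rw [← integral_add i1 i2]
    refine integral_hvol_congr fun y hy => ?_
    rw [lap_mul hm hy (hks.c2At hy) (hφ.c2At hy)]
    ring
  have p1 : HD.P τ (lap 𝓜 g (fun y => φ y * U y)) x = ∫ y, k y * lap 𝓜 g (fun y => φ y * U y) y ∂(hvol 𝓜 g) := rfl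
  have p2 : HD.P τ (fun y => φ y * lap 𝓜 g U y) x = ∫ y, (k y * φ y) * lap 𝓜 g U y ∂(hvol 𝓜 g) := by
    rw [HeatData.P]
    exact integral_congr_ae (Eventually.of_forall fun y => by show k y * _ = _; ring)
  rw [p1, p2, g2, e, g1]
  ring

omit HD in
/-- polynomials are dominated by Gaussians. -/
theorem hc_poly_gauss (m : ℕ) {a : ℝ} (ha : 0 < a) (σ : ℝ) (hσ : 0 ≤ σ) :
    (1 + σ) ^ m * Real.exp (-(a * σ ^ 2)) ≤ Real.exp ((m : ℝ) ^ 2 / (4 * a)) := by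
  have h1 : (1 + σ) ^ m ≤ Real.exp (m * σ) := by
    rw [Real.exp_nat_mul]
    exact pow_le_pow_left₀ (by positivity) (by linarith [Real.add_one_le_exp σ]) m
  calc (1 + σ) ^ m * Real.exp (-(a * σ ^ 2))
      ≤ Real.exp (m * σ) * Real.exp (-(a * σ ^ 2)) :=
        mul_le_mul_of_nonneg_right h1 (Real.exp_pos _).le
    _ = Real.exp (m * σ + -(a * σ ^ 2)) := (Real.exp_add _ _).symm
    _ ≤ _ := by
        refine Real.exp_le_exp.2 ?_
        have h2 : 0 ≤ a * (σ - m / (2 * a)) ^ 2 := by positivity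
        have h3 : a * (σ - m / (2 * a)) ^ 2 = a * σ ^ 2 - m * σ + (m : ℝ) ^ 2 / (4 * a) := by
          field_simp
          ring
        linarith

/-- uniform Gaussian bound of the kernel and of its gradient far from `x`, for bounded times. -/
theorem hc_far_grad_bound (S : AnaSetting 𝓜 g) (hx : x ∈ 𝓜.carrier) {δ T : ℝ} (hδ : 0 < δ)
    (hT : 0 < T) : ∃ B ε : ℝ, 0 < B ∧ 0 < ε ∧ ∀ τ ∈ Set.Ioc 0 T, ∀ y ∈ 𝓜.carrier, δ ≤ hdist 𝓜 g x y →
      HD.Hk τ x y ≤ B * Real.exp (-(ε * hdist 𝓜 g x y ^ 2)) ∧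
      gradSq 𝓜 g (HD.Hk τ x) y ≤ (B * Real.exp (-(ε * hdist 𝓜 g x y ^ 2))) ^ 2 := by
  have hg : IsMetric 𝓜 g := S.kahler.toIsMetric
  obtain ⟨C₁, c₁, hc₁, hup⟩ := HD.upper
  obtain ⟨C₂, c₂, hc₂, hgr⟩ := HD.grad
  obtain ⟨CV, hCV, hratio⟩ := HD.vol.ratio
  obtain ⟨CW, hCW, hVV⟩ := ly_Vb_le_Vb S HD.vol
  set c : ℝ := min c₁ c₂ with hc
  have hc0 : 0 < c := lt_min hc₁ hc₂
  set V₀ : ℝ := Vb 𝓜 g x (Real.sqrt T) with hV₀
  have hsT : 0 < Real.sqrt T := Real.sqrt_pos.2 hT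
  have hV₀0 : 0 < V₀ := HD.vol.pos x hx _ hsT
  set κ : ℝ := Real.sqrt T / δ with hκ
  have hκ0 : 0 < κ := by positivity
  set M : ℝ := Real.exp (((4 * n + 1 : ℕ) : ℝ) ^ 2 / (4 * (c / 2))) with hM
  have hM0 : 0 < M := Real.exp_pos _
  set A₁ : ℝ := |C₁| * CV * κ ^ (2 * n) / V₀ with hA₁
  set A₂ : ℝ := |C₂| * CW * CV * κ ^ (2 * n) / (δ * V₀) with hA₂
  have hA₁0 : 0 ≤ A₁ := by positivity
  have hA₂0 : 0 ≤ A₂ := by positivity
  refine ⟨(A₁ + A₂ + 1) * M, c / (2 * T), by positivity, by positivity, ?_⟩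
  intro τ hτ y hy hd
  have hτ0 : 0 < τ := hτ.1
  have hsτ : 0 < Real.sqrt τ := Real.sqrt_pos.2 hτ0
  set d : ℝ := hdist 𝓜 g x y with hdd
  have hd0 : 0 < d := lt_of_lt_of_le hδ hd
  set σ : ℝ := d / Real.sqrt τ with hσ
  have hσ0 : 0 < σ := by positivity
  set p : ℝ := 1 + σ with hp
  have hp1 : 1 ≤ p := by rw [hp]; linarith
  have hp0 : 0 < p := by linarith
  have hσ2 : σ ^ 2 = d ^ 2 / τ := by
    rw [hσ, div_pow, Real.sq_sqrt hτ0.le]
  -- elementary comparisons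
  have h1 : 1 / Real.sqrt τ ≤ p / δ := by
    have : 1 / Real.sqrt τ = σ / d := by
      rw [hσ]; field_simp
    rw [this]
    calc σ / d ≤ σ / δ := div_le_div_of_nonneg_left hσ0.le hδ hd
      _ ≤ p / δ := div_le_div_of_nonneg_right (by rw [hp]; linarith) hδ.le
  have h2 : Real.sqrt T / Real.sqrt τ ≤ κ * p := by
    calc Real.sqrt T / Real.sqrt τ = Real.sqrt T * (1 / Real.sqrt τ) := by ring
      _ ≤ Real.sqrt T * (p / δ) := mul_le_mul_of_nonneg_left h1 hsT.le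
      _ = κ * p := by rw [hκ]; ring
  have hVx : 0 < Vb 𝓜 g x (Real.sqrt τ) := HD.vol.pos x hx _ hsτ
  have hVy : 0 < Vb 𝓜 g y (Real.sqrt τ) := HD.vol.pos y hy _ hsτ
  -- volumes
  have hv1 : 1 / Vb 𝓜 g x (Real.sqrt τ) ≤ CV * (κ * p) ^ (2 * n) / V₀ := by
    have h3 := hratio x hx (Real.sqrt τ) (Real.sqrt T) hsτ (Real.sqrt_le_sqrt hτ.2)
    have h4 : V₀ ≤ CV * (κ * p) ^ (2 * n) * Vb 𝓜 g x (Real.sqrt τ) := by
      refine h3.trans (mul_le_mul_of_nonneg_right (mul_le_mul_of_nonneg_left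
        (pow_le_pow_left₀ (by positivity) h2 _) (by linarith)) hVx.le)
    rw [div_le_div_iff₀ hVx hV₀0]
    linarith
  have hv2 : 1 / Vb 𝓜 g y (Real.sqrt τ) ≤ CW * p ^ (2 * n) * (CV * (κ * p) ^ (2 * n) / V₀) := by
    have h3 := hVV x hx y hy (Real.sqrt τ) hsτ
    have h4 : 1 / Vb 𝓜 g y (Real.sqrt τ) ≤ CW * p ^ (2 * n) * (1 / Vb 𝓜 g x (Real.sqrt τ)) := by
      rw [mul_one_div, div_le_div_iff₀ hVy hVx]
      linarith
    exact h4.trans (mul_le_mul_of_nonneg_left hv1 (by positivity))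
  -- the Gaussian factor
  have hgauss : p ^ (4 * n + 1) * Real.exp (-(c * σ ^ 2)) ≤
      M * Real.exp (-(c / (2 * T) * d ^ 2)) := by
    have h5 := hc_poly_gauss (4 * n + 1) (half_pos hc0) σ hσ0.le
    have h6 : Real.exp (-(c / 2 * σ ^ 2)) ≤ Real.exp (-(c / (2 * T) * d ^ 2)) := by
      refine Real.exp_le_exp.2 ?_
      rw [hσ2]
      have h7 : d ^ 2 / T ≤ d ^ 2 / τ := div_le_div_of_nonneg_left (by positivity) hτ0 hτ.2
      have h8 : c / (2 * T) * d ^ 2 = c / 2 * (d ^ 2 / T) := by field_simp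
      rw [h8]
      have := mul_le_mul_of_nonneg_left h7 (half_pos hc0).le
      linarith
    calc p ^ (4 * n + 1) * Real.exp (-(c * σ ^ 2))
        = (p ^ (4 * n + 1) * Real.exp (-(c / 2 * σ ^ 2))) * Real.exp (-(c / 2 * σ ^ 2)) := by
          rw [mul_assoc, ← Real.exp_add]
          congr 2
          ring
      _ ≤ M * Real.exp (-(c / (2 * T) * d ^ 2)) :=
          mul_le_mul h5 h6 (Real.exp_pos _).le hM0.le
  have hE0 : 0 < Real.exp (-(c / (2 * T) * d ^ 2)) := Real.exp_pos _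
  have he₁ : Real.exp (-(c₁ * d ^ 2 / τ)) ≤ Real.exp (-(c * σ ^ 2)) := by
    refine Real.exp_le_exp.2 ?_
    rw [hσ2, mul_div_assoc]
    have : c * (d ^ 2 / τ) ≤ c₁ * (d ^ 2 / τ) :=
      mul_le_mul_of_nonneg_right (min_le_left _ _) (by positivity)
    linarith
  have he₂ : Real.exp (-(c₂ * d ^ 2 / τ)) ≤ Real.exp (-(c * σ ^ 2)) := by
    refine Real.exp_le_exp.2 ?_
    rw [hσ2, mul_div_assoc]
    have : c * (d ^ 2 / τ) ≤ c₂ * (d ^ 2 / τ) :=
      mul_le_mul_of_nonneg_right (min_le_right _ _) (by positivity)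
    linarith
  have hpp : p ^ (2 * n) ≤ p ^ (4 * n + 1) := pow_le_pow_right₀ hp1 (by omega)
  constructor
  · calc HD.Hk τ x y ≤ C₁ / Vb 𝓜 g x (Real.sqrt τ) * Real.exp (-(c₁ * d ^ 2 / τ)) :=
          hup τ hτ0 x hx y hy
      _ ≤ |C₁| * (1 / Vb 𝓜 g x (Real.sqrt τ)) * Real.exp (-(c₁ * d ^ 2 / τ)) := by
          refine mul_le_mul_of_nonneg_right ?_ (Real.exp_pos _).le
          rw [mul_one_div]
          exact div_le_div_of_nonneg_right (le_abs_self _) hVx.le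
      _ ≤ |C₁| * (CV * (κ * p) ^ (2 * n) / V₀) * Real.exp (-(c * σ ^ 2)) :=
          mul_le_mul (mul_le_mul_of_nonneg_left hv1 (abs_nonneg _)) he₁ (Real.exp_pos _).le
            (by positivity)
      _ = A₁ * (p ^ (2 * n) * Real.exp (-(c * σ ^ 2))) := by
          rw [hA₁, mul_pow]; ring
      _ ≤ A₁ * (p ^ (4 * n + 1) * Real.exp (-(c * σ ^ 2))) :=
          mul_le_mul_of_nonneg_left (mul_le_mul_of_nonneg_right hpp (Real.exp_pos _).le) hA₁0
      _ ≤ A₁ * (M * Real.exp (-(c / (2 * T) * d ^ 2))) := mul_le_mul_of_nonneg_left hgauss hA₁0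
      _ ≤ (A₁ + A₂ + 1) * (M * Real.exp (-(c / (2 * T) * d ^ 2))) :=
          mul_le_mul_of_nonneg_right (by linarith) (by positivity)
      _ = _ := by ring
  · have hsymm : HD.Hk τ x = fun x' => HD.Hk τ x' x := by
      funext x'; exact HD.symm τ x x'
    have h9 := hgr τ hτ0 y hy x hx
    rw [hdist_comm hg y x, ← hsymm] at h9
    refine h9.trans ?_
    rw [← sq_abs (C₂ / Real.sqrt τ / Vb 𝓜 g y (Real.sqrt τ) * Real.exp (-(c₂ * d ^ 2 / τ)))]
    refine pow_le_pow_left₀ (abs_nonneg _) ?_ 2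
    rw [abs_mul, abs_of_pos (Real.exp_pos _), abs_div, abs_div, abs_of_pos hsτ, abs_of_pos hVy]
    calc |C₂| / Real.sqrt τ / Vb 𝓜 g y (Real.sqrt τ) * Real.exp (-(c₂ * d ^ 2 / τ))
        = |C₂| * (1 / Real.sqrt τ) * (1 / Vb 𝓜 g y (Real.sqrt τ))
            * Real.exp (-(c₂ * d ^ 2 / τ)) := by ring
      _ ≤ |C₂| * (p / δ) * (CW * p ^ (2 * n) * (CV * (κ * p) ^ (2 * n) / V₀))
            * Real.exp (-(c * σ ^ 2)) :=
          mul_le_mul (mul_le_mul (mul_le_mul_of_nonneg_left h1 (abs_nonneg _)) hv2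
            (by positivity) (by positivity)) he₂ (Real.exp_pos _).le (by positivity)
      _ = A₂ * (p ^ (4 * n + 1) * Real.exp (-(c * σ ^ 2))) := by
          have e : p ^ (4 * n + 1) = p ^ (2 * n) * p ^ (2 * n) * p := by ring
          rw [hA₂, mul_pow, e]
          field_simp
      _ ≤ A₂ * (M * Real.exp (-(c / (2 * T) * d ^ 2))) := mul_le_mul_of_nonneg_left hgauss hA₂0
      _ ≤ (A₁ + A₂ + 1) * (M * Real.exp (-(c / (2 * T) * d ^ 2))) :=
          mul_le_mul_of_nonneg_right (by linarith) (by positivity)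
      _ = _ := by ring

/-- the error term of the commutator identity is `O(1/N)`, uniformly for `τ ∈ (0,T]`. -/
theorem hc_cut_error (S : AnaSetting 𝓜 g) (ho : o ∈ 𝓜.carrier) {U : V → ℝ} (hU : 𝓜.Smooth U)
    (hG : SubGauss 𝓜 g o U) (hx : x ∈ 𝓜.carrier) {T C : ℝ} (hT : 0 < T) :
    ∃ K N₀ : ℝ, ∀ N : ℝ, N₀ ≤ N → ∀ φ : V → ℝ, 𝓜.Smooth φ →
      (∀ y ∈ 𝓜.carrier, hdist 𝓜 g o y ≤ N → φ y = 1) →
      (∀ y ∈ 𝓜.carrier, C * N ≤ hdist 𝓜 g o y → φ y = 0) →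
      (∀ y ∈ 𝓜.carrier, gradSq 𝓜 g φ y ≤ (C / N) ^ 2) →
      (∀ y ∈ 𝓜.carrier, |lap 𝓜 g φ y| ≤ C / N ^ 2) → ∀ τ ∈ Set.Ioc 0 T,
      |∫ y, U y * (HD.Hk τ x y * lap 𝓜 g φ y + 2 * gradInner 𝓜 g (HD.Hk τ x) φ y) ∂(hvol 𝓜 g)|
        ≤ K / N := by
  have hg : IsMetric 𝓜 g := S.kahler.toIsMetric
  obtain ⟨B, ε, hB, hε, hfar⟩ := hc_far_grad_bound HD S hx (δ := 1) one_pos hT
  have hGx : SubGauss 𝓜 g x (fun y => |U y|) := hc_subGauss_abs (hc_subGauss_base S ho hx hG)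
  have hI := hGx ε hε
  set I : ℝ := ∫ y, |U y| * Real.exp (-(ε * hdist 𝓜 g x y ^ 2)) ∂(hvol 𝓜 g) with hIdef
  refine ⟨3 * B * |C| * I, hdist 𝓜 g o x + 1, ?_⟩
  intro N hN φ hφ hφ1 _ hφg hφl τ hτ
  have hN1 : 1 ≤ N := by
    have := hdist_nonneg 𝓜 g o x
    linarith
  have hN0 : 0 < N := by linarith
  have hbound : ∀ y ∈ 𝓜.carrier,
      ‖U y * (HD.Hk τ x y * lap 𝓜 g φ y + 2 * gradInner 𝓜 g (HD.Hk τ x) φ y)‖
        ≤ (3 * B * |C| / N) * (|U y| * Real.exp (-(ε * hdist 𝓜 g x y ^ 2))) := by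
    intro y hy
    rw [Real.norm_eq_abs, abs_mul]
    by_cases hd : hdist 𝓜 g o y < N
    · -- `φ = 1` near `y`
      have hev : ∀ᶠ y' in 𝓝[𝓜.carrier] y, φ y' = (fun _ => (1 : ℝ)) y' := by
        have hc := (continuousOn_hdist_right hg S.conn ho) y hy
        have h1 : ∀ᶠ y' in 𝓝[𝓜.carrier] y, hdist 𝓜 g o y' < N :=
          hc.eventually (Iio_mem_nhds hd)
        filter_upwards [h1, self_mem_nhdsWithin] with y' h2 h3
        exact hφ1 y' h3 h2.le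
      rw [lap_congr g hy hev, lap_const, gradInner_congr_right g hy hev, gradInner_const_right]
      simp only [mul_zero, add_zero, abs_zero]
      positivity
    · push Not at hd
      have hdx : 1 ≤ hdist 𝓜 g x y := by
        have := hdist_triangle hg S.conn ho hx hy
        linarith
      obtain ⟨f1, f2⟩ := hfar τ hτ y hy hdx
      set e : ℝ := Real.exp (-(ε * hdist 𝓜 g x y ^ 2)) with he
      have he0 : 0 < e := Real.exp_pos _
      have k0 : 0 ≤ HD.Hk τ x y := hc_Hk_nonneg HD hτ.1 x y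
      have l1 : |lap 𝓜 g φ y| ≤ |C| / N := by
        refine (hφl y hy).trans ?_
        calc C / N ^ 2 ≤ |C| / N ^ 2 := div_le_div_of_nonneg_right (le_abs_self _) (by positivity)
          _ ≤ |C| / N := by
              refine div_le_div_of_nonneg_left (abs_nonneg _) hN0 ?_
              nlinarith
      have g1 : Real.sqrt (gradSq 𝓜 g φ y) ≤ |C| / N := by
        have := Real.sqrt_le_sqrt (hφg y hy)
        rwa [Real.sqrt_sq_eq_abs, abs_div, abs_of_pos hN0] at this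
      have g2 : Real.sqrt (gradSq 𝓜 g (HD.Hk τ x) y) ≤ B * e := by
        have := Real.sqrt_le_sqrt f2
        rwa [Real.sqrt_sq (by positivity)] at this
      have g3 : |gradInner 𝓜 g (HD.Hk τ x) φ y| ≤ B * e * (|C| / N) :=
        (abs_gradInner_le hg hy _ _).trans
          (mul_le_mul g2 g1 (Real.sqrt_nonneg _) (by positivity))
      have h4 : |HD.Hk τ x y * lap 𝓜 g φ y + 2 * gradInner 𝓜 g (HD.Hk τ x) φ y|
          ≤ 3 * (B * e * (|C| / N)) := by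
        refine (abs_add_le _ _).trans ?_
        rw [abs_mul, abs_mul, abs_of_nonneg k0, abs_two]
        have h5 : HD.Hk τ x y * |lap 𝓜 g φ y| ≤ B * e * (|C| / N) :=
          mul_le_mul f1 l1 (abs_nonneg _) (by positivity)
        linarith
      calc |U y| * |HD.Hk τ x y * lap 𝓜 g φ y + 2 * gradInner 𝓜 g (HD.Hk τ x) φ y|
          ≤ |U y| * (3 * (B * e * (|C| / N))) := mul_le_mul_of_nonneg_left h4 (abs_nonneg _)
        _ = _ := by ring
  have h6 := norm_integral_le_of_norm_le (hI.const_mul (3 * B * |C| / N))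
    (ae_hvol_of_forall_mem (h := g) hbound)
  rw [Real.norm_eq_abs, integral_const_mul] at h6
  refine h6.trans (le_of_eq ?_)
  rw [← hIdef]
  ring

/-- dominated convergence along the cutoffs. -/
theorem hc_tendsto_P_cut (S : AnaSetting 𝓜 g) (ho : o ∈ 𝓜.carrier) (hf : SubGauss 𝓜 g o f)
    {φ : ℕ → V → ℝ} (hφm : ∀ N, AEStronglyMeasurable (φ N) (hvol 𝓜 g))
    (hφ01 : ∀ N, ∀ y ∈ 𝓜.carrier, 0 ≤ φ N y ∧ φ N y ≤ 1)
    (hφ1 : ∀ N : ℕ, ∀ y ∈ 𝓜.carrier, hdist 𝓜 g o y ≤ N → φ N y = 1) (ht : 0 < t)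
    (hx : x ∈ 𝓜.carrier) :
    Tendsto (fun N => HD.P t (fun y => φ N y * f y) x) atTop (𝓝 (HD.P t f x)) := by
  have hi := hc_integrable_Hk_mul HD S ho hf ht hx
  unfold HeatData.P
  refine tendsto_integral_of_dominated_convergence (fun y => ‖HD.Hk t x y * f y‖) (fun N => ?_)
    hi.norm (fun N => ?_) ?_
  · have h1 := (hφm N).mul hi.aestronglyMeasurable
    refine h1.congr (Eventually.of_forall fun y => ?_)
    show φ N y * (HD.Hk t x y * f y) = HD.Hk t x y * (φ N y * f y)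
    ring
  · refine ae_hvol_of_forall_mem fun y hy => ?_
    have h2 : HD.Hk t x y * (φ N y * f y) = φ N y * (HD.Hk t x y * f y) := by ring
    rw [h2, norm_mul, Real.norm_eq_abs (φ N y), abs_of_nonneg (hφ01 N y hy).1]
    calc φ N y * ‖HD.Hk t x y * f y‖ ≤ 1 * ‖HD.Hk t x y * f y‖ :=
          mul_le_mul_of_nonneg_right (hφ01 N y hy).2 (norm_nonneg _)
      _ = _ := one_mul _
  · refine ae_hvol_of_forall_mem fun y hy => ?_
    obtain ⟨k₀, hk₀⟩ := exists_nat_ge (hdist 𝓜 g o y)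
    refine tendsto_const_nhds.congr' ?_
    filter_upwards [eventually_ge_atTop k₀] with N hN
    rw [hφ1 N y hy (hk₀.trans (by exact_mod_cast hN)), one_mul]

/-- Duhamel for the truncated function. -/
theorem hc_cut_duhamel (S : AnaSetting 𝓜 g) {U φ : V → ℝ} (hU : 𝓜.Smooth U) (hφ : 𝓜.Smooth φ)
    (hc : 𝓜.CSupp φ) (ht : 0 < t) (hx : x ∈ 𝓜.carrier) :
    IntervalIntegrable (fun τ => HD.P τ (lap 𝓜 g (fun y => φ y * U y)) x) volume 0 t ∧
    HD.P t (fun y => φ y * U y) x - φ x * U x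
      = ∫ τ in (0 : ℝ)..t, HD.P τ (lap 𝓜 g (fun y => φ y * U y)) x := by
  have hF : 𝓜.Smooth (fun y => φ y * U y) := hφ.mul hU
  have hFc : 𝓜.CSupp (fun y => φ y * U y) := hc.mul_right U
  obtain ⟨h1, h2⟩ := ly_duhamel (hcCore HD S) S ht hx (F := fun _ y => φ y * U y)
    (hF.toST) (hFc.toST _)
  have e1 : ∀ s : ℝ, heatOp 𝓜 g (Set.Icc 0 t) (fun _ y => φ y * U y) s
      = fun y => (-1) * lap 𝓜 g (fun y => φ y * U y) y := by
    intro s
    funext y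
    rw [ly_heatOp_space]
    ring
  have e2 : ∀ s : ℝ, (hcCore HD S).P (t - s) (heatOp 𝓜 g (Set.Icc 0 t) (fun _ y => φ y * U y) s) x
      = - HD.P (t - s) (lap 𝓜 g (fun y => φ y * U y)) x := by
    intro s
    rw [e1 s, hcCore_P, hc_P_smul]
    ring
  simp only [e2] at h1 h2
  have h3 : IntervalIntegrable (fun s => HD.P (t - s) (lap 𝓜 g (fun y => φ y * U y)) x)
      volume 0 t := by
    refine h1.neg.congr fun s _ => ?_
    simp
  have h4 := (h3.comp_sub_left t).symm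
  simp only [sub_sub_cancel, sub_self, sub_zero] at h4
  refine ⟨h4, ?_⟩
  rw [intervalIntegral.integral_neg,
    intervalIntegral.integral_comp_sub_left (fun τ => HD.P τ (lap 𝓜 g (fun y => φ y * U y)) x) t,
    sub_self, sub_zero] at h2
  have h5 : (hcCore HD S).P t (fun y => φ y * U y) x = HD.P t (fun y => φ y * U y) x := rfl
  rw [h5] at h2
  linarith

/-- the sequence of cutoffs with the commutator estimate. -/
theorem hc_cut_main (S : AnaSetting 𝓜 g) (ho : o ∈ 𝓜.carrier) (DC : hcLapCutoffs 𝓜 g o) {U : V → ℝ}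
    (hU : 𝓜.Smooth U) (hG : SubGauss 𝓜 g o U) (ht : 0 < t) (hx : x ∈ 𝓜.carrier) :
    ∃ (K : ℝ) (φ : ℕ → V → ℝ), (∀ k, 𝓜.Smooth (φ k)) ∧ (∀ k, 𝓜.CSupp (φ k)) ∧
      (∀ k, ∀ y ∈ 𝓜.carrier, 0 ≤ φ k y ∧ φ k y ≤ 1) ∧
      (∀ k : ℕ, ∀ y ∈ 𝓜.carrier, hdist 𝓜 g o y ≤ k → φ k y = 1) ∧
      ∀ᶠ k : ℕ in atTop, ∀ τ ∈ Set.Ioc 0 t,
        |HD.P τ (lap 𝓜 g (fun y => φ k y * U y)) x - HD.P τ (fun y => φ k y * lap 𝓜 g U y) x|
          ≤ K / ((k : ℝ) + 1) := by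
  obtain ⟨C, hC⟩ := DC
  have h1k : ∀ k : ℕ, (1 : ℝ) ≤ (k : ℝ) + 1 := fun k => by
    have : (0 : ℝ) ≤ k := Nat.cast_nonneg k
    linarith
  choose φ hφs hφ01 hφ1 hφ0 hφg hφl using fun k : ℕ => hC ((k : ℝ) + 1) (h1k k)
  obtain ⟨K, N₀, hK⟩ := hc_cut_error HD S ho hU hG hx (C := C) ht
  have hcs : ∀ k, 𝓜.CSupp (φ k) := fun k => ly_csupp_of_eq_zero S ho (hφ0 k)
  refine ⟨K, φ, hφs, hcs, hφ01, fun k y hy hd => hφ1 k y hy (by linarith), ?_⟩
  obtain ⟨k₀, hk₀⟩ := exists_nat_ge N₀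
  filter_upwards [eventually_ge_atTop k₀] with k hk τ hτ
  have hkN : N₀ ≤ (k : ℝ) + 1 := by
    have : (k₀ : ℝ) ≤ k := by exact_mod_cast hk
    linarith
  rw [hc_cut_identity HD S hU (hφs k) (hcs k) hτ.1 hx, sub_sub_cancel_left, abs_neg]
  exact hK _ hkN (φ k) (hφs k) (hφ1 k) (hφ0 k) (hφg k) (hφl k) τ hτ

theorem hc_submean (S : AnaSetting 𝓜 g) (ho : o ∈ 𝓜.carrier) (DC : hcLapCutoffs 𝓜 g o) {w : V → ℝ}
    (hw : 𝓜.Smooth w) (hsub : ∀ y ∈ 𝓜.carrier, 0 ≤ lap 𝓜 g w y) (hG : SubGauss 𝓜 g o w) (ht : 0 < t)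
    (hx : x ∈ 𝓜.carrier) : w x ≤ HD.P t w x := by
  obtain ⟨K, φ, hφs, hcs, hφ01, hφ1, hE⟩ := hc_cut_main HD S ho DC hw hG ht hx
  have hlim1 := hc_tendsto_P_cut HD S ho hG
    (fun k => aestronglyMeasurable_hvol_of_continuousOn (hφs k).continuousOn) hφ01 hφ1 ht hx
  have hlim2 : Tendsto (fun k : ℕ => t * (K * (1 / ((k : ℝ) + 1)))) atTop (𝓝 (t * (K * 0))) :=
    (tendsto_one_div_add_atTop_nhds_zero_nat.const_mul K).const_mul t
  have hlim := hlim1.add hlim2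
  rw [mul_zero, mul_zero, add_zero] at hlim
  refine ge_of_tendsto hlim ?_
  obtain ⟨k₀, hk₀⟩ := exists_nat_ge (hdist 𝓜 g o x)
  filter_upwards [hE, eventually_ge_atTop k₀] with k hk hkk
  have hx1 : φ k x = 1 := hφ1 k x hx (hk₀.trans (by exact_mod_cast hkk))
  obtain ⟨hi, hd⟩ := hc_cut_duhamel HD S hw (hφs k) (hcs k) ht hx
  rw [hx1, one_mul] at hd
  have h2 : ∫ τ in (0 : ℝ)..t, (-(K / ((k : ℝ) + 1))) ≤
      ∫ τ in (0 : ℝ)..t, HD.P τ (lap 𝓜 g (fun y => φ k y * w y)) x := by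
    refine intervalIntegral.integral_mono_on_of_le_Ioo ht.le intervalIntegrable_const hi ?_
    intro τ hτ
    have h3 := (abs_le.1 (hk τ ⟨hτ.1, hτ.2.le⟩)).1
    have h4 : 0 ≤ HD.P τ (fun y => φ k y * lap 𝓜 g w y) x :=
      hc_P_nonneg HD (fun y hy => mul_nonneg (hφ01 k y hy).1 (hsub y hy)) hτ.1 x
    linarith
  rw [intervalIntegral.integral_const, sub_zero, smul_eq_mul] at h2
  have h5 : t * (K * (1 / ((k : ℝ) + 1))) = - (t * -(K / ((k : ℝ) + 1))) := by ring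
  rw [h5]
  linarith

theorem hc_duhamel (S : AnaSetting 𝓜 g) (ho : o ∈ 𝓜.carrier) (DC : hcLapCutoffs 𝓜 g o) {U : V → ℝ}
    (hU : 𝓜.Smooth U) (hG : SubGauss 𝓜 g o U) (hG' : SubGauss 𝓜 g o (lap 𝓜 g U)) (ht : 0 < t)
    (hx : x ∈ 𝓜.carrier) :
    IntervalIntegrable (fun s => HD.P s (lap 𝓜 g U) x) volume 0 t ∧
    HD.P t U x - U x = HD.Pot t (lap 𝓜 g U) x := by
  have hg : IsMetric 𝓜 g := S.kahler.toIsMetric
  have hLs : 𝓜.Smooth (lap 𝓜 g U) := smooth_lap hg hU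
  have hLc : ContinuousOn (lap 𝓜 g U) 𝓜.carrier := hLs.continuousOn
  have hI := hc_intervalIntegrable_P HD S ho hG' hLc hx t ht.le
  refine ⟨hI, ?_⟩
  obtain ⟨K, φ, hφs, hcs, hφ01, hφ1, hE⟩ := hc_cut_main HD S ho DC hU hG ht hx
  have hφm : ∀ k, AEStronglyMeasurable (φ k) (hvol 𝓜 g) :=
    fun k => aestronglyMeasurable_hvol_of_continuousOn (hφs k).continuousOn
  have hφb : ∀ k, ∀ y ∈ 𝓜.carrier, |φ k y| ≤ 1 := fun k y hy => by
    rw [abs_of_nonneg (hφ01 k y hy).1]; exact (hφ01 k y hy).2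
  have hGk : ∀ k, SubGauss 𝓜 g o (fun y => φ k y * lap 𝓜 g U y) :=
    fun k => hc_subGauss_bdd_mul S (hφm k) (hφb k) hG'
  have hIk : ∀ k, IntervalIntegrable (fun s => HD.P s (fun y => φ k y * lap 𝓜 g U y) x) volume 0 t :=
    fun k => hc_intervalIntegrable_P HD S ho (hGk k) ((hφs k).continuousOn.mul hLc) hx t ht.le
  -- limit of the left side
  have hlim1 := hc_tendsto_P_cut HD S ho hG hφm hφ01 hφ1 ht hx
  -- limit of the main term
  have hlim2 : Tendsto (fun k => ∫ s in (0 : ℝ)..t, HD.P s (fun y => φ k y * lap 𝓜 g U y) x) atTop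
      (𝓝 (∫ s in (0 : ℝ)..t, HD.P s (lap 𝓜 g U) x)) := by
    refine intervalIntegral.tendsto_integral_filter_of_dominated_convergence
      (fun s => HD.P s (fun y => |lap 𝓜 g U y|) x)
      (Eventually.of_forall fun k => (hIk k).def'.aestronglyMeasurable)
      (Eventually.of_forall fun k => Eventually.of_forall fun s hs => ?_)
      (hc_intervalIntegrable_P HD S ho (hc_subGauss_abs hG') hLc.abs hx t ht.le)
      (Eventually.of_forall fun s hs => ?_)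
    · rw [Set.uIoc_of_le ht.le] at hs
      rw [Real.norm_eq_abs]
      refine (hc_abs_P_le HD hs.1 x).trans ?_
      refine hc_P_mono HD S ho (hc_subGauss_abs (hGk k)) (hc_subGauss_abs hG') (fun y hy => ?_)
        hs.1 hx
      rw [abs_mul]
      calc |φ k y| * |lap 𝓜 g U y| ≤ 1 * |lap 𝓜 g U y| :=
            mul_le_mul_of_nonneg_right (hφb k y hy) (abs_nonneg _)
        _ = _ := one_mul _
    · rw [Set.uIoc_of_le ht.le] at hs
      exact hc_tendsto_P_cut HD S ho hG' hφm hφ01 hφ1 hs.1 hx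
  have hlim3 : Tendsto (fun k : ℕ => K * (1 / ((k : ℝ) + 1)) * t) atTop (𝓝 (K * 0 * t)) :=
    (tendsto_one_div_add_atTop_nhds_zero_nat.const_mul K).mul_const t
  rw [mul_zero, zero_mul] at hlim3
  -- the difference tends to zero
  obtain ⟨k₀, hk₀⟩ := exists_nat_ge (hdist 𝓜 g o x)
  have hdiff : Tendsto (fun k => (HD.P t (fun y => φ k y * U y) x - U x)
      - ∫ s in (0 : ℝ)..t, HD.P s (fun y => φ k y * lap 𝓜 g U y) x) atTop (𝓝 0) := by
    refine squeeze_zero_norm' ?_ hlim3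
    filter_upwards [hE, eventually_ge_atTop k₀] with k hk hkk
    have hx1 : φ k x = 1 := hφ1 k x hx (hk₀.trans (by exact_mod_cast hkk))
    obtain ⟨hi, hd⟩ := hc_cut_duhamel HD S hU (hφs k) (hcs k) ht hx
    rw [hx1, one_mul] at hd
    rw [hd, ← intervalIntegral.integral_sub hi (hIk k)]
    have h6 := intervalIntegral.norm_integral_le_of_norm_le_const (a := 0) (b := t)
      (C := K / ((k : ℝ) + 1))
      (f := fun τ => HD.P τ (lap 𝓜 g (fun y => φ k y * U y)) x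
        - HD.P τ (fun y => φ k y * lap 𝓜 g U y) x) (fun τ hτ => by
        rw [Set.uIoc_of_le ht.le] at hτ
        rw [Real.norm_eq_abs]
        exact hk τ hτ)
    rw [sub_zero, abs_of_pos ht] at h6
    calc _ ≤ K / ((k : ℝ) + 1) * t := h6
      _ = _ := by ring
  have hfin := tendsto_nhds_unique (hdiff.add hlim2) (by
    have := hlim1.sub_const (U x)
    refine this.congr fun k => ?_
    ring)
  rw [zero_add] at hfin
  rw [← hfin]
  rfl

end Claimed.Agent.R316
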