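import Claimed.Agent.R316.Base.Heat.C.Semi

/-!
# Row 316, Part C of `Base/Heat/Api.lean`, file 3: Bochner, bounded data, reverse Poincare   (`HC-4`)

Sub-captain: helper225.  The statements `hc_X` are VERBATIM the statements `X` / `HeatData.X` of `Base/Heat/Api.lean` (which cites them).

PLANS.
* `hc_isHeatSub_gradSq`: on an interval `J ⊆ I` (`IsTimeDom`): `smoothST_gradSq`, `ly_hasDerivWithinAt_gradSq`, `ly_bochD_nonneg`; `I` open: localise.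
* `hc_bounded_data`: `ly_li_yau` for `1 + P_a f` and `2 - P_a f` (values in `[1,2]`): `|Δ P_a f| ≤ 2n/a`, `gradSq ≤ 8n/a`.
* `hc_reverse_poincare`: `u = hcU HD f`, `w s = s gradSq (u s) + (u s)²/2 - hcU HD (f²/2) s` is a subsolution on `(0,b]` (`ly_heatOp_mul/_sq/_gradSq`), continuous on `[0,b] × M`, `w 0 = 0`,
  bounded above (`hc_bounded_data` rescaled: `s gradSq (u s) ≤ C Λ²`); `ly_heatSub_nonpos_of_bddAbove`.
-/

set_option autoImplicit false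
set_option linter.unusedSectionVars false
open scoped ContDiff ComplexOrder Topology
open MeasureTheory Filter

namespace Claimed.Agent.R316

variable {V : Type} [NormedAddCommGroup V] [NormedSpace ℝ V] [MeasurableSpace V] [BorelSpace V]
variable {n : ℕ}
variable [FiniteDimensional ℝ V]
variable {𝓜 : CMfd V (Fin n)} {g : HFam V (Fin n)}

/-- the same on a time domain (interval). -/
theorem hc_isHeatSub_gradSq' (S : AnaSetting 𝓜 g) {I : Set ℝ} (hI : IsTimeDom I) {u : ℝ → V → ℝ}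
    (hu : IsHeatSol 𝓜 g I u) : IsHeatSub 𝓜 g I (fun t => gradSq 𝓜 g (u t)) := by
  have hg : IsMetric 𝓜 g := S.kahler.toIsMetric
  refine ⟨smoothST_gradSq hI (isMetricST_const hg I) hu.1, fun t ht x hx => ?_⟩
  refine ⟨_, ly_hasDerivWithinAt_gradSq hg hI hu.1 hu.2 ht hx, ?_⟩
  have h := ly_bochD_nonneg S.kahler S.ric (hu.1.smooth ht) hx
  rw [bochD] at h
  linarith

/-- Bochner inequality for solutions (`Ric ≥ 0`): `gradSq u` is a subsolution. -/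
theorem hc_isHeatSub_gradSq (S : AnaSetting 𝓜 g) {I : Set ℝ} (hI : IsOpen I) {u : ℝ → V → ℝ}
    (hu : IsHeatSol 𝓜 g I u) : IsHeatSub 𝓜 g I (fun t => gradSq 𝓜 g (u t)) := by
  have key : ∀ t ∈ I, ∃ ε : ℝ, 0 < ε ∧ Set.Ioo (t - ε) (t + ε) ⊆ I ∧
      IsHeatSub 𝓜 g (Set.Ioo (t - ε) (t + ε)) (fun t => gradSq 𝓜 g (u t)) := by
    intro t ht
    obtain ⟨ε, hε, hsub⟩ := Metric.isOpen_iff.1 hI t ht
    rw [Real.ball_eq_Ioo] at hsub
    exact ⟨ε, hε, hsub, hc_isHeatSub_gradSq' S (isTimeDom_Ioo (by linarith))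
      (ly_heatSol_mono hu hsub)⟩
  refine ⟨fun Φ U hΦ => ?_, fun t ht x hx => ?_⟩
  · rintro ⟨t, z⟩ ⟨ht, hz⟩
    obtain ⟨ε, hε, -, hs⟩ := key t ht
    have hmem : ((t, z) : ℝ × CE (Fin n)) ∈ Set.Ioo (t - ε) (t + ε) ×ˢ U :=
      ⟨⟨by linarith, by linarith⟩, hz⟩
    exact ((hs.1 Φ U hΦ).contDiffAt
      ((isOpen_Ioo.prod (CMfd.isOpen_dom hΦ)).mem_nhds hmem)).contDiffWithinAt
  · obtain ⟨ε, hε, -, hs⟩ := key t ht
    obtain ⟨ut, h1, h2⟩ := hs.2 t ⟨by linarith, by linarith⟩ x hx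
    exact ⟨ut, (h1.hasDerivAt (Ioo_mem_nhds (by linarith) (by linarith))).hasDerivWithinAt, h2⟩

/-- the algebra behind `hc_bounded_data`. -/
theorem hc_li_yau_alg {G L q r N : ℝ} (hG : 0 ≤ G) (hN : 0 ≤ N) (hq1 : 1 ≤ q) (hq2 : q ≤ 2)
    (hr1 : 1 ≤ r) (hr2 : r ≤ 2) (h1 : G / q ^ 2 - L / q ≤ N) (h2 : G / r ^ 2 - (-L) / r ≤ N) :
    |L| ≤ 12 * N ∧ G ≤ 12 * N := by
  have hq0 : 0 < q := by linarith
  have hr0 : 0 < r := by linarith
  have e1 : G / q ^ 2 - L / q = (G - L * q) / q ^ 2 := by field_simp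
  have e2 : G / r ^ 2 - (-L) / r = (G + L * r) / r ^ 2 := by field_simp; ring
  rw [e1, div_le_iff₀ (by positivity)] at h1
  rw [e2, div_le_iff₀ (by positivity)] at h2
  have b1 : N * q ≤ N * 2 := mul_le_mul_of_nonneg_left hq2 hN
  have b2 : N * r ≤ N * 2 := mul_le_mul_of_nonneg_left hr2 hN
  have a1 : -L ≤ N * q := by
    have h : -L * q ≤ (N * q) * q := by nlinarith
    exact le_of_mul_le_mul_right h hq0
  have a2 : L ≤ N * r := by
    have h : L * r ≤ (N * r) * r := by nlinarith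
    exact le_of_mul_le_mul_right h hr0
  refine ⟨abs_le.2 ⟨by linarith, by linarith⟩, ?_⟩
  have c1 : L * q ≤ (N * 2) * 2 := by
    have h0 : (0 : ℝ) ≤ N * 2 := by positivity
    calc L * q ≤ (N * 2) * q := mul_le_mul_of_nonneg_right (by linarith) hq0.le
      _ ≤ (N * 2) * 2 := mul_le_mul_of_nonneg_left hq2 h0
  have c2 : N * q ^ 2 ≤ N * 4 := mul_le_mul_of_nonneg_left (by nlinarith) hN
  linarith

variable (HD : HeatData 𝓜 g) {o x : V} {f f' : V → ℝ} {t s : ℝ}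

include HD

theorem hc_bounded_data (S : AnaSetting 𝓜 g) : ∃ C : ℝ, ∀ f : V → ℝ, Measurable f →
    (∀ y, 0 ≤ f y ∧ f y ≤ 1) → ∀ a : ℝ, 0 < a → ∀ x ∈ 𝓜.carrier,
      |lap 𝓜 g (HD.P a f) x| ≤ C / a ∧ gradSq 𝓜 g (HD.P a f) x ≤ C / a := by
  refine ⟨12 * n, fun f hfm hf a ha x hx => ?_⟩
  have hg : IsMetric 𝓜 g := S.kahler.toIsMetric
  obtain ⟨o, ho⟩ := S.conn.nonempty
  have hb1 : ∀ y ∈ 𝓜.carrier, |f y| ≤ 1 := fun y _ => by
    rw [abs_of_nonneg (hf y).1]; exact (hf y).2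
  have hG : SubGauss 𝓜 g o f := hc_subGauss_of_bounded HD S ho hfm.aestronglyMeasurable hb1
  have hsol := hc_isHeatSol_P HD ho hG
  have h01 : ∀ t : ℝ, 0 < t → ∀ y ∈ 𝓜.carrier, 0 ≤ HD.P t f y ∧ HD.P t f y ≤ 1 := by
    intro t ht y hy
    exact ⟨hc_P_nonneg HD (fun z _ => (hf z).1) ht y,
      (le_abs_self _).trans (hc_abs_P_le_of_bdd HD S hfm.aestronglyMeasurable hb1 ht hy)⟩
  have hsub : Set.Ioc 0 a ⊆ Set.Ioi 0 := fun s hs => hs.1
  have hu1 : IsHeatSol 𝓜 g (Set.Ioc 0 a) (fun t y => HD.P t f y + 1) := by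
    refine ⟨(hsol.1.mono hsub).add_const 1, fun t ht y hy => ?_⟩
    rw [lap_add_const]
    exact ((hsol.2 t ht.1 y hy).mono hsub).add_const 1
  have hu2 : IsHeatSol 𝓜 g (Set.Ioc 0 a) (fun t y => - HD.P t f y + 2) := by
    refine ⟨((hsol.1.mono hsub).neg).add_const 2, fun t ht y hy => ?_⟩
    rw [lap_add_const 𝓜 g (fun y => - HD.P t f y) 2, lap_neg]
    exact (((hsol.2 t ht.1 y hy).mono hsub).neg).add_const 2
  have L1 := ly_li_yau S ha hu1 (fun t ht y hy => by linarith [(h01 t ht.1 y hy).1]) a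
    ⟨ha, le_rfl⟩ x hx
  have L2 := ly_li_yau S ha hu2 (fun t ht y hy => by linarith [(h01 t ht.1 y hy).2]) a
    ⟨ha, le_rfl⟩ x hx
  rw [gradSq_add_const, lap_add_const] at L1
  rw [gradSq_add_const 𝓜 g (fun y => - HD.P a f y) 2, lap_add_const 𝓜 g (fun y => - HD.P a f y) 2,
    gradSq_neg, lap_neg] at L2
  obtain ⟨p0, p1⟩ := h01 a ha x hx
  have hN : (0 : ℝ) ≤ n / a := by positivity
  have := hc_li_yau_alg (gradSq_nonneg hg _ hx) hN (by linarith) (by linarith) (by linarith)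
    (by linarith) L1 L2
  rw [mul_div_assoc]
  exact this

/-- rescaled: `|f| ≤ Λ` on the carrier, `f` a.e. strongly measurable. -/
theorem hc_gradSq_P_le_of_bdd (S : AnaSetting 𝓜 g) : ∃ C : ℝ, 0 ≤ C ∧ ∀ (f : V → ℝ) (Λ : ℝ),
    AEStronglyMeasurable f (hvol 𝓜 g) → (∀ y ∈ 𝓜.carrier, |f y| ≤ Λ) → ∀ a : ℝ, 0 < a →
      ∀ x ∈ 𝓜.carrier, gradSq 𝓜 g (HD.P a f) x ≤ C * Λ ^ 2 / a := by
  obtain ⟨C, hC⟩ := hc_bounded_data HD S
  refine ⟨4 * max C 0, by positivity, fun f Λ hfm hΛ a ha x hx => ?_⟩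
  have hg : IsMetric 𝓜 g := S.kahler.toIsMetric
  have hΛ0 : 0 ≤ Λ := (abs_nonneg _).trans (hΛ x hx)
  rcases hΛ0.eq_or_lt with h0 | hpos
  · have hz : ∀ y ∈ 𝓜.carrier, f y = (fun _ => (0 : ℝ)) y := fun y hy => by
      have := hΛ y hy
      rw [← h0] at this
      exact abs_eq_zero.1 (le_antisymm this (abs_nonneg _))
    have hP : HD.P a f = fun _ => 0 := by
      funext z
      rw [hc_P_congr HD hz a z]
      simp [HeatData.P]
    rw [hP, gradSq_const, ← h0]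
    simp
  · have hG : SubGauss 𝓜 g x f := hc_subGauss_of_bounded HD S hx hfm hΛ
    set f1 : V → ℝ := fun y => max 0 (min 1 ((hfm.mk f y + Λ) / (2 * Λ))) with hf1
    have hf1m : Measurable f1 :=
      measurable_const.max (measurable_const.min
        ((hfm.stronglyMeasurable_mk.measurable.add_const Λ).div_const (2 * Λ)))
    have hf101 : ∀ y, 0 ≤ f1 y ∧ f1 y ≤ 1 := fun y =>
      ⟨le_max_left _ _, max_le zero_le_one (min_le_left _ _)⟩
    have hae : ∀ᵐ y ∂(hvol 𝓜 g), f1 y = (f y + Λ) / (2 * Λ) := by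
      filter_upwards [hfm.ae_eq_mk, ae_mem_carrier 𝓜 g] with y hy hyM
      have hb := abs_le.1 (hΛ y hyM)
      have h1 : (f y + Λ) / (2 * Λ) ≤ 1 := by
        rw [div_le_one (by positivity)]; linarith [hb.2]
      have h2 : 0 ≤ (f y + Λ) / (2 * Λ) := div_nonneg (by linarith [hb.1]) (by positivity)
      rw [hf1]
      simp only
      rw [← hy, min_eq_right h1, max_eq_right h2]
    have hP : ∀ z ∈ 𝓜.carrier, HD.P a f1 z = 1 / (2 * Λ) * HD.P a f z + 1 / 2 := by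
      intro z hz
      have hi := hc_integrable_Hk_mul HD S hx hG ha hz
      have e : HD.P a f1 z = ∫ y, (1 / (2 * Λ) * (HD.Hk a z y * f y) + 1 / 2 * HD.Hk a z y)
          ∂(hvol 𝓜 g) := by
        refine integral_congr_ae ?_
        filter_upwards [hae] with y hy
        rw [hy]
        field_simp
      rw [e, integral_add (hi.const_mul _) ((HD.integrable a ha z hz).const_mul _),
        integral_const_mul, integral_const_mul, HD.mass a ha z hz, mul_one]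
      rfl
    have hsm : 𝓜.Smooth (HD.P a f) := (hc_isHeatSol_P HD hx hG).1.smooth (Set.mem_Ioi.2 ha)
    have e1 : gradSq 𝓜 g (HD.P a f1) x = (1 / (2 * Λ)) ^ 2 * gradSq 𝓜 g (HD.P a f) x := by
      rw [gradSq_congr g hx (eventually_nhdsWithin_of_forall hP),
        gradSq_add_const 𝓜 g (fun z => 1 / (2 * Λ) * HD.P a f z) (1 / 2),
        gradSq_const_mul g _ (hsm.diffAt hx)]
    have e2 := (hC f1 hf1m hf101 a ha x hx).2
    rw [e1] at e2
    have e3 : C / a ≤ max C 0 / a := div_le_div_of_nonneg_right (le_max_left _ _) ha.le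
    have e4 : gradSq 𝓜 g (HD.P a f) x = (2 * Λ) ^ 2 * ((1 / (2 * Λ)) ^ 2 * gradSq 𝓜 g (HD.P a f) x) := by
      field_simp
    rw [e4]
    calc (2 * Λ) ^ 2 * ((1 / (2 * Λ)) ^ 2 * gradSq 𝓜 g (HD.P a f) x)
        ≤ (2 * Λ) ^ 2 * (max C 0 / a) := mul_le_mul_of_nonneg_left (e2.trans e3) (by positivity)
      _ = 4 * max C 0 * Λ ^ 2 / a := by ring

theorem hc_reverse_poincare (S : AnaSetting 𝓜 g) (hf : 𝓜.Smooth f) {Λ : ℝ}
    (hΛ : ∀ y ∈ 𝓜.carrier, |f y| ≤ Λ) {b : ℝ} (hb : 0 < b) (hx : x ∈ 𝓜.carrier) :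
    gradSq 𝓜 g (HD.P b f) x ≤ (HD.P b (fun y => f y ^ 2) x - HD.P b f x ^ 2) / (2 * b) := by
  have hg : IsMetric 𝓜 g := S.kahler.toIsMetric
  have hfm : AEStronglyMeasurable f (hvol 𝓜 g) :=
    aestronglyMeasurable_hvol_of_continuousOn hf.continuousOn
  have hG : SubGauss 𝓜 g x f := hc_subGauss_of_bounded HD S hx hfm hΛ
  have hf2 : 𝓜.Smooth (fun y => f y ^ 2) := hf.pow 2
  have hΛ2 : ∀ y ∈ 𝓜.carrier, |f y ^ 2| ≤ Λ ^ 2 := fun y hy => by
    rw [abs_pow]; exact pow_le_pow_left₀ (abs_nonneg _) (hΛ y hy) 2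
  have hG2 : SubGauss 𝓜 g x (fun y => f y ^ 2) := hc_subGauss_of_bounded HD S hx
    (aestronglyMeasurable_hvol_of_continuousOn hf2.continuousOn) hΛ2
  have hI : IsTimeDom (Set.Icc 0 b) := isTimeDom_Icc hb
  have hu : IsHeatSol 𝓜 g (Set.Icc 0 b) (hcU HD f) := hc_isHeatSol_hcU HD S hx hG hf hb
  have hv : IsHeatSol 𝓜 g (Set.Icc 0 b) (hcU HD (fun y => f y ^ 2)) :=
    hc_isHeatSol_hcU HD S hx hG2 hf2 hb
  have hGs : 𝓜.SmoothST (Set.Icc 0 b) (fun s => gradSq 𝓜 g (hcU HD f s)) :=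
    smoothST_gradSq hI (isMetricST_const hg _) hu.1
  have hA : 𝓜.SmoothST (Set.Icc 0 b) (fun s y => s * gradSq 𝓜 g (hcU HD f s) y) :=
    CMfd.smoothST_time.mul hGs
  have hB : 𝓜.SmoothST (Set.Icc 0 b) (fun s y => 1 / 2 * hcU HD f s y ^ 2) :=
    (hu.1.pow 2).const_mul (1 / 2)
  have hCc : 𝓜.SmoothST (Set.Icc 0 b) (fun s y => 1 / 2 * hcU HD (fun y => f y ^ 2) s y) :=
    hv.1.const_mul (1 / 2)
  set w : ℝ → V → ℝ := fun s y => (s * gradSq 𝓜 g (hcU HD f s) y + 1 / 2 * hcU HD f s y ^ 2)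
    - 1 / 2 * hcU HD (fun y => f y ^ 2) s y with hw
  have hws : 𝓜.SmoothST (Set.Icc 0 b) w := (hA.add hB).sub hCc
  have hop : ∀ s ∈ Set.Icc 0 b, ∀ y ∈ 𝓜.carrier, heatOp 𝓜 g (Set.Icc 0 b) w s y ≤ 0 := by
    intro s hs y hy
    have e1 : heatOp 𝓜 g (Set.Icc 0 b) (fun s y => s * gradSq 𝓜 g (hcU HD f s) y) s y =
        s * (- bochD 𝓜 g (hcU HD f s) y) + gradSq 𝓜 g (hcU HD f s) y * 1 - 2 * 0 := by
      have h := ly_heatOp_mul hg hI (F := fun t _ => t) (G := fun s => gradSq 𝓜 g (hcU HD f s))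
        CMfd.smoothST_time hGs hs hy
      rw [ly_heatOp_gradSq hg hI hu hs hy, ly_heatOp_time (a := fun s => s) hI hs (hasDerivWithinAt_id s _),
        gradInner_const_left] at h
      exact h
    have e2 : heatOp 𝓜 g (Set.Icc 0 b) (fun s y => 1 / 2 * hcU HD f s y ^ 2) s y =
        1 / 2 * (- (2 * gradSq 𝓜 g (hcU HD f s) y)) := by
      rw [ly_heatOp_const_mul hI (1 / 2) (hu.1.pow 2) hs hy, ly_heatOp_sq hI hu hs hy]
    have e3 : heatOp 𝓜 g (Set.Icc 0 b) (fun s y => 1 / 2 * hcU HD (fun y => f y ^ 2) s y) s y =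
        1 / 2 * 0 := by
      rw [ly_heatOp_const_mul hI (1 / 2) hv.1 hs hy, ly_heatOp_sol hI hv hs hy]
    rw [hw, ly_heatOp_sub hI (hA.add hB) hCc hs hy, ly_heatOp_add hI hA hB hs hy, e1, e2, e3]
    have h1 := ly_bochD_nonneg S.kahler S.ric (hu.1.smooth hs) hy
    have h2 : 0 ≤ s * bochD 𝓜 g (hcU HD f s) y := mul_nonneg hs.1 h1
    linarith
  have hsub : IsHeatSub 𝓜 g (Set.Ioc 0 b) w := by
    refine ⟨hws.mono Set.Ioc_subset_Icc_self, fun s hs y hy => ?_⟩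
    refine ⟨_, (hws.hasDerivWithinAt (Set.Ioc_subset_Icc_self hs) hy).mono
      Set.Ioc_subset_Icc_self, ?_⟩
    have h := hop s (Set.Ioc_subset_Icc_self hs) y hy
    rw [heatOp] at h
    linarith
  obtain ⟨C, hC0, hC⟩ := hc_gradSq_P_le_of_bdd HD S
  have h0 : ∀ y ∈ 𝓜.carrier, w 0 y ≤ 0 := fun y _ => by
    rw [hw]
    simp only [hcU_zero]
    linarith
  have hBd : ∃ B : ℝ, ∀ s ∈ Set.Icc 0 b, ∀ y ∈ 𝓜.carrier, w s y ≤ B := by
    refine ⟨C * Λ ^ 2 + 1 / 2 * Λ ^ 2, fun s hs y hy => ?_⟩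
    have hpos : 0 ≤ C * Λ ^ 2 + 1 / 2 * Λ ^ 2 := by positivity
    rcases hs.1.eq_or_lt with h | h
    · rw [← h]; exact (h0 y hy).trans hpos
    · rw [hw]
      simp only [hcU_of_pos HD _ h]
      have a1 : s * gradSq 𝓜 g (HD.P s f) y ≤ C * Λ ^ 2 := by
        have := hC f Λ hfm hΛ s h y hy
        rw [le_div_iff₀ h] at this
        linarith
      have a2 : HD.P s f y ^ 2 ≤ Λ ^ 2 := by
        have := hc_abs_P_le_of_bdd HD S hfm hΛ h hy
        rw [← sq_abs]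
        exact pow_le_pow_left₀ (abs_nonneg _) this 2
      have a3 : 0 ≤ HD.P s (fun y => f y ^ 2) y := hc_P_nonneg HD (fun z _ => sq_nonneg _) h y
      linarith
  have hfin := ly_heatSub_nonpos_of_bddAbove S hb hsub hws.continuousOn hBd h0 b
    ⟨hb.le, le_rfl⟩ x hx
  rw [hw] at hfin
  simp only [hcU_of_pos HD _ hb] at hfin
  rw [le_div_iff₀ (by positivity)]
  linarith

theorem hc_gradSq_P_le (S : AnaSetting 𝓜 g) (hf : 𝓜.Smooth f) {Λ : ℝ}
    (hΛ : ∀ y ∈ 𝓜.carrier, 0 ≤ f y ∧ f y ≤ Λ) {b : ℝ} (hb : 0 < b) (hx : x ∈ 𝓜.carrier) :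
    gradSq 𝓜 g (HD.P b f) x ≤ Λ * HD.P b f x / (2 * b) := by
  have hΛ' : ∀ y ∈ 𝓜.carrier, |f y| ≤ Λ := fun y hy => by
    rw [abs_of_nonneg (hΛ y hy).1]; exact (hΛ y hy).2
  have hfm : AEStronglyMeasurable f (hvol 𝓜 g) :=
    aestronglyMeasurable_hvol_of_continuousOn hf.continuousOn
  have hG : SubGauss 𝓜 g x f := hc_subGauss_of_bounded HD S hx hfm hΛ'
  have hΛ2 : ∀ y ∈ 𝓜.carrier, |f y ^ 2| ≤ Λ ^ 2 := fun y hy => by
    rw [abs_pow]; exact pow_le_pow_left₀ (abs_nonneg _) (hΛ' y hy) 2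
  have hG2 : SubGauss 𝓜 g x (fun y => f y ^ 2) := hc_subGauss_of_bounded HD S hx
    (aestronglyMeasurable_hvol_of_continuousOn (hf.pow 2).continuousOn) hΛ2
  have h1 := hc_reverse_poincare HD S hf hΛ' hb hx
  have h2 : HD.P b (fun y => f y ^ 2) x ≤ Λ * HD.P b f x := by
    rw [← hc_P_smul HD Λ]
    refine hc_P_mono HD S hx hG2 (hc_subGauss_const_mul Λ hG) (fun y hy => ?_) hb hx
    have := hΛ y hy
    nlinarith [this.1, this.2]
  refine h1.trans (div_le_div_of_nonneg_right ?_ (by positivity))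
  nlinarith [sq_nonneg (HD.P b f x)]

end Claimed.Agent.R316
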