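import Claimed.Agent.R316.Base.Heat.C.Semi

/-!
# Row 316, Part C of `Base/Heat/Api.lean`, file 6: potentials   (`HC-7`)

Sub-captain: helper225.  The statements `hc_X` are VERBATIM the statements `HeatData.X` of `Base/Heat/Api.lean` (which cites them).
Proved by helper268 (`HC-7.1`, `HC-7.2`, `HC-7.3`).

PLANS.
* `hc_Pot_eq`: the integrands differ at `s = 0` only (`intervalIntegral.integral_congr_ae`).
* `hc_smoothST_Pot`, `hc_lap_Pot`: `nt_primitive` (`Base/NiTam/Sol.lean`) for `hc_isHeatSol_hcU` on `Icc 0 T`; `Ici 0` is locally `Icc 0 T`.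
* `hc_gradInner_Pot`: in a chart `grad10` of the primitive is the integral of `grad10` (`ntq_dz_primitive` in `Base/NiTam/PInt.lean`), `gradInner_eq`.
* `hc_sqrt_gradSq_Pot_le`: `gradSq W = ∫ ⟨∂u_s,∂W⟩ ds ≤ ∫ √(gradSq u_s) ds · √(gradSq W)` (`abs_gradInner_le`).
* `hc_nt2_upper`: `B = A + dd Pot ≥ 0` (`HD.nt2`), `tr_g B = tr A + Δ Pot = P_b tr A` (`hc_lap_Pot`), and `0 ≤ B ⟹ B ≤ (tr_g B) g`.
-/

set_option autoImplicit false
set_option linter.unusedSectionVars false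
open scoped ContDiff ComplexOrder Topology
open MeasureTheory Filter

namespace Claimed.Agent.R316

variable {V : Type} [NormedAddCommGroup V] [NormedSpace ℝ V] [MeasurableSpace V] [BorelSpace V]
variable {n : ℕ}
variable [FiniteDimensional ℝ V]
variable {𝓜 : CMfd V (Fin n)} {g : HFam V (Fin n)}

/-- a nonnegative form is bounded by its trace. -/
theorem hc_leF_tr_smul (hg : IsMetric 𝓜 g) {B : HFam V (Fin n)} (hB : IsHForm 𝓜 B)
    (h0 : leF 𝓜 0 B) : leF 𝓜 B (smulF (tr 𝓜 g B) g) := by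
  intro Φ U hΦ z hz
  have h1 : (B Φ z).PosSemidef := by
    have := h0 Φ U hΦ z hz
    simpa using this
  show ((((tr 𝓜 g B (Φ z) : ℝ) : ℂ)) • g Φ z - B Φ z).PosSemidef
  rw [tr_eq hg hB hΦ hz]
  exact le_trace_smul (hg.posDef hΦ z hz) h1

/-- `Ici 0` is locally `Icc 0 T`. -/
theorem hc_smoothST_Ici_of_Icc {u : ℝ → V → ℝ}
    (h : ∀ T : ℝ, 0 < T → 𝓜.SmoothST (Set.Icc 0 T) u) : 𝓜.SmoothST (Set.Ici 0) u := by
  intro Φ U hΦ q hq
  have hb : (0 : ℝ) ≤ q.1 := hq.1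
  have h1 := h (q.1 + 1) (by linarith) Φ U hΦ q ⟨⟨hb, by linarith⟩, hq.2⟩
  refine h1.mono_of_mem_nhdsWithin ?_
  have h2 : (Set.Iio (q.1 + 1) ×ˢ (Set.univ : Set (CE (Fin n)))) ∈ 𝓝 q := by
    have : q = (q.1, q.2) := rfl
    rw [this]
    exact prod_mem_nhds (Iio_mem_nhds (by simp)) univ_mem
  refine Filter.mem_of_superset (inter_mem_nhdsWithin _ h2) ?_
  rintro p ⟨hp1, hp2⟩
  exact ⟨⟨hp1.1, le_of_lt hp2.1⟩, hp1.2⟩

variable (HD : HeatData 𝓜 g) {o x : V} {f f' : V → ℝ} {t s : ℝ}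

include HD

theorem hc_ae_hcU_eq (f : V → ℝ) : ∀ᵐ s : ℝ, hcU HD f s = HD.P s f := by
  have h : ∀ᵐ s : ℝ, s ≠ 0 := by simp [ae_iff, measure_singleton]
  filter_upwards [h] with s hs
  funext x
  simp [hcU, hs]

theorem hc_Pot_eq (f : V → ℝ) (b : ℝ) (x : V) :
    HD.Pot b f x = ∫ s in (0 : ℝ)..b, hcU HD f s x := by
  unfold HeatData.Pot
  refine intervalIntegral.integral_congr_ae ?_
  filter_upwards [hc_ae_hcU_eq HD f] with s hs _
  rw [hs]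

theorem hc_Pot_eq' (f : V → ℝ) :
    (fun b => HD.Pot b f) = fun b x => ∫ s in (0 : ℝ)..b, hcU HD f s x := by
  funext b x
  exact hc_Pot_eq HD f b x

theorem hc_smoothST_Pot (S : AnaSetting 𝓜 g) (ho : o ∈ 𝓜.carrier) (hf : 𝓜.Smooth f)
    (hG : SubGauss 𝓜 g o f) : 𝓜.SmoothST (Set.Ici 0) (fun b => HD.Pot b f) := by
  rw [hc_Pot_eq']
  exact hc_smoothST_Ici_of_Icc fun T hT =>
    (nt_primitive S.kahler.toIsMetric hT (hc_isHeatSol_hcU HD S ho hG hf hT)).1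

theorem hc_lap_Pot (S : AnaSetting 𝓜 g) (ho : o ∈ 𝓜.carrier) (hf : 𝓜.Smooth f) (hG : SubGauss 𝓜 g o f)
    {b : ℝ} (hb : 0 < b) (hx : x ∈ 𝓜.carrier) : lap 𝓜 g (HD.Pot b f) x = HD.P b f x - f x := by
  have h1 := (nt_primitive S.kahler.toIsMetric hb (hc_isHeatSol_hcU HD S ho hG hf hb)).2.2 b
    ⟨hb.le, le_rfl⟩ x hx
  have h2 : HD.Pot b f = fun x' => ∫ s in (0 : ℝ)..b, hcU HD f s x' := congrFun (hc_Pot_eq' HD f) b
  rw [h2, h1, hcU_of_pos HD f hb, hcU_zero]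

/-- the `(1,0)`-gradient of the potential in a parametrisation. -/
theorem hc_grad10_Pot (S : AnaSetting 𝓜 g) (ho : o ∈ 𝓜.carrier) (hf : 𝓜.Smooth f)
    (hG : SubGauss 𝓜 g o f) {b : ℝ} (hb : 0 < b) {Φ : CE (Fin n) → V} {U : Set (CE (Fin n))}
    (hΦ : 𝓜.IsHol Φ U) {z : CE (Fin n)} (hz : z ∈ U) (k : Fin n) :
    ContinuousOn (fun s => grad10 (hcU HD f s ∘ Φ) z k) (Set.Icc 0 b) ∧
    grad10 (HD.Pot b f ∘ Φ) z k = ∫ s in (0 : ℝ)..b, grad10 (hcU HD f s ∘ Φ) z k := by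
  have hU := CMfd.isOpen_dom hΦ
  have hI := isTimeDom_Icc hb
  have hF := (hc_isHeatSol_hcU HD S ho hG hf hb).1 Φ U hΦ
  have hGc := st_contDiffOn_ofReal hF
  constructor
  · exact ntq_continuousOn_time
      (F := fun q : ℝ × CE (Fin n) => grad10 (fun y => hcU HD f q.1 (Φ y)) q.2 k)
      (contDiffOn_grad10_slice hI hU hF k).continuousOn hz
  · have h1 := ntq_dz_primitive hb hU hGc ⟨hb.le, le_rfl⟩ hz k
    have h2 : (fun y => (((HD.Pot b f ∘ Φ) y : ℝ) : ℂ))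
        = fun y => ∫ s in (0 : ℝ)..b, ((hcU HD f s (Φ y) : ℝ) : ℂ) := by
      funext y
      rw [Function.comp_apply, hc_Pot_eq]
      exact intervalIntegral.integral_ofReal.symm
    show dz k (fun y => (((HD.Pot b f ∘ Φ) y : ℝ) : ℂ)) z = _
    rw [h2]
    exact h1

omit HD in
/-- `ξ ↦ ⟨ξ, η⟩` as a continuous real linear map. -/
noncomputable def hcDual (A : Matrix (Fin n) (Fin n) ℂ) (η : Fin n → ℂ) : (Fin n → ℂ) →L[ℝ] ℝ :=
  LinearMap.toContinuousLinearMap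
    (IsLinearMap.mk' (fun ξ : Fin n → ℂ => dualIP A ξ η)
      ⟨fun a b => dualIP_add_left A a b η, fun c a => by
        have h : c • a = ((c : ℝ) : ℂ) • a := by
          funext k
          simp
        rw [h, dualIP_smul_left, smul_eq_mul]⟩)

omit HD in
theorem hcDual_apply (A : Matrix (Fin n) (Fin n) ℂ) (ξ η : Fin n → ℂ) :
    hcDual A η ξ = dualIP A ξ η := rfl

omit HD in
theorem hc_pot_eqns_cite : True := by
  have := @hcDual.eq_1
  trivial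

/-- the vector valued form of `hc_grad10_Pot`. -/
theorem hc_grad10_Pot_vec (S : AnaSetting 𝓜 g) (ho : o ∈ 𝓜.carrier) (hf : 𝓜.Smooth f)
    (hG : SubGauss 𝓜 g o f) {b : ℝ} (hb : 0 < b) {Φ : CE (Fin n) → V} {U : Set (CE (Fin n))}
    (hΦ : 𝓜.IsHol Φ U) {z : CE (Fin n)} (hz : z ∈ U) :
    ContinuousOn (fun s => grad10 (hcU HD f s ∘ Φ) z) (Set.Icc 0 b) ∧
    IntervalIntegrable (fun s => grad10 (hcU HD f s ∘ Φ) z) volume 0 b ∧
    grad10 (HD.Pot b f ∘ Φ) z = ∫ s in (0 : ℝ)..b, grad10 (hcU HD f s ∘ Φ) z := by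
  have hc : ContinuousOn (fun s => grad10 (hcU HD f s ∘ Φ) z) (Set.Icc 0 b) :=
    continuousOn_pi.2 fun k => (hc_grad10_Pot HD S ho hf hG hb hΦ hz k).1
  have hi : IntervalIntegrable (fun s => grad10 (hcU HD f s ∘ Φ) z) volume 0 b :=
    (hc.mono (by rw [Set.uIcc_of_le hb.le])).intervalIntegrable
  refine ⟨hc, hi, ?_⟩
  funext k
  rw [(hc_grad10_Pot HD S ho hf hG hb hΦ hz k).2]
  exact (ContinuousLinearMap.proj (R := ℝ) (φ := fun _ : Fin n => ℂ) k).intervalIntegral_comp_comm hi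

/-- the gradient of the potential is the integral of the gradients. -/
theorem hc_gradInner_Pot (S : AnaSetting 𝓜 g) (ho : o ∈ 𝓜.carrier) (hf : 𝓜.Smooth f)
    (hG : SubGauss 𝓜 g o f) {b : ℝ} (hb : 0 < b) (hx : x ∈ 𝓜.carrier) (w : V → ℝ) :
    gradInner 𝓜 g (HD.Pot b f) w x = ∫ s in (0 : ℝ)..b, gradInner 𝓜 g (hcU HD f s) w x := by
  have hg := S.kahler.toIsMetric
  obtain ⟨Φ, U, hΦ, z, hz, rfl⟩ := 𝓜.cover x hx
  obtain ⟨-, hi, he⟩ := hc_grad10_Pot_vec HD S ho hf hG hb hΦ hz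
  simp only [gradInner_eq hg _ _ hΦ hz]
  rw [he]
  exact ((hcDual (g Φ z) (grad10 (w ∘ Φ) z)).intervalIntegral_comp_comm hi).symm

/-- continuity in time of the pairing and of the gradient norm. -/
theorem hc_continuousOn_gradInner (S : AnaSetting 𝓜 g) (ho : o ∈ 𝓜.carrier) (hf : 𝓜.Smooth f)
    (hG : SubGauss 𝓜 g o f) {b : ℝ} (hb : 0 < b) (hx : x ∈ 𝓜.carrier) (w : V → ℝ) :
    ContinuousOn (fun s => gradInner 𝓜 g (hcU HD f s) w x) (Set.Icc 0 b) ∧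
    ContinuousOn (fun s => gradSq 𝓜 g (hcU HD f s) x) (Set.Icc 0 b) := by
  have hg := S.kahler.toIsMetric
  obtain ⟨Φ, U, hΦ, z, hz, rfl⟩ := 𝓜.cover x hx
  obtain ⟨hc, -, -⟩ := hc_grad10_Pot_vec HD S ho hf hG hb hΦ hz
  constructor
  · simp only [gradInner_eq hg _ _ hΦ hz]
    exact (hcDual (g Φ z) (grad10 (w ∘ Φ) z)).continuous.comp_continuousOn hc
  · simp only [gradSq_eq hg _ hΦ hz, qf_eq_sum]
    refine Complex.continuous_re.comp_continuousOn ?_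
    refine continuousOn_finset_sum _ fun j _ => continuousOn_finset_sum _ fun k _ => ?_
    have hj := (continuousOn_pi.1 hc) j
    have hk := (continuousOn_pi.1 hc) k
    exact ((Complex.continuous_conj.comp_continuousOn hj).mul continuousOn_const).mul hk

theorem hc_sqrt_gradSq_Pot_le (S : AnaSetting 𝓜 g) (ho : o ∈ 𝓜.carrier) (hf : 𝓜.Smooth f)
    (hG : SubGauss 𝓜 g o f) {b : ℝ} (hb : 0 < b) (hx : x ∈ 𝓜.carrier) :
    IntervalIntegrable (fun s => Real.sqrt (gradSq 𝓜 g (HD.P s f) x)) volume 0 b ∧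
    Real.sqrt (gradSq 𝓜 g (HD.Pot b f) x) ≤ ∫ s in (0 : ℝ)..b, Real.sqrt (gradSq 𝓜 g (HD.P s f) x) := by
  have hg := S.kahler.toIsMetric
  have hsub : Set.uIcc (0 : ℝ) b ⊆ Set.Icc 0 b := by rw [Set.uIcc_of_le hb.le]
  obtain ⟨c1, c2⟩ := hc_continuousOn_gradInner HD S ho hf hG hb hx (HD.Pot b f)
  have i1 : IntervalIntegrable (fun s => gradInner 𝓜 g (hcU HD f s) (HD.Pot b f) x) volume 0 b :=
    (c1.mono hsub).intervalIntegrable
  have i2 : IntervalIntegrable (fun s => Real.sqrt (gradSq 𝓜 g (hcU HD f s) x)) volume 0 b :=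
    ((Real.continuous_sqrt.comp_continuousOn c2).mono hsub).intervalIntegrable
  have hae : (fun s => Real.sqrt (gradSq 𝓜 g (hcU HD f s) x))
      =ᵐ[volume] fun s => Real.sqrt (gradSq 𝓜 g (HD.P s f) x) := by
    filter_upwards [hc_ae_hcU_eq HD f] with s hs
    rw [hs]
  refine ⟨i2.congr_ae (ae_restrict_of_ae hae), ?_⟩
  have e0 : ∫ s in (0 : ℝ)..b, Real.sqrt (gradSq 𝓜 g (HD.P s f) x)
      = ∫ s in (0 : ℝ)..b, Real.sqrt (gradSq 𝓜 g (hcU HD f s) x) := by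
    refine intervalIntegral.integral_congr_ae ?_
    filter_upwards [hae] with s hs _
    exact hs.symm
  rw [e0]
  set Q := gradSq 𝓜 g (HD.Pot b f) x with hQ
  have hQ0 : 0 ≤ Q := gradSq_nonneg hg _ hx
  have h1 : Q = ∫ s in (0 : ℝ)..b, gradInner 𝓜 g (hcU HD f s) (HD.Pot b f) x := by
    rw [← hc_gradInner_Pot HD S ho hf hG hb hx (HD.Pot b f), gradInner_self]
  have h2 : Q ≤ (∫ s in (0 : ℝ)..b, Real.sqrt (gradSq 𝓜 g (hcU HD f s) x)) * Real.sqrt Q := by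
    rw [← intervalIntegral.integral_mul_const]
    refine le_trans (le_of_eq h1) ?_
    refine intervalIntegral.integral_mono_on hb.le i1 (i2.mul_const _) fun s _ => ?_
    exact le_trans (le_abs_self _) (abs_gradInner_le hg hx _ _)
  have h3 : 0 ≤ ∫ s in (0 : ℝ)..b, Real.sqrt (gradSq 𝓜 g (hcU HD f s) x) :=
    intervalIntegral.integral_nonneg hb.le fun s _ => Real.sqrt_nonneg _
  rcases eq_or_lt_of_le (Real.sqrt_nonneg Q) with h4 | h4
  · rw [← h4]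
    exact h3
  · have h5 : Real.sqrt Q * Real.sqrt Q
        ≤ (∫ s in (0 : ℝ)..b, Real.sqrt (gradSq 𝓜 g (hcU HD f s) x)) * Real.sqrt Q := by
      rw [Real.mul_self_sqrt hQ0]
      exact h2
    exact le_of_mul_le_mul_right h5 h4

theorem hc_nt2_upper (S : AnaSetting 𝓜 g) {A : HFam V (Fin n)} (hA : IsHForm 𝓜 A)
    (hcl : IsClosedForm 𝓜 A) (h0 : leF 𝓜 0 A) (h1 : leF 𝓜 A g) {b : ℝ} (hb : 0 < b) :
    leF 𝓜 (A + ddc (HD.Pot b (tr 𝓜 g A))) (smulF (HD.P b (tr 𝓜 g A)) g) := by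
  have hg := S.kahler.toIsMetric
  obtain ⟨o, ho⟩ := S.conn.nonempty
  obtain ⟨hs, hpos⟩ := HD.nt2 A hA hcl h0 h1 b hb
  have hs' : 𝓜.Smooth (HD.Pot b (tr 𝓜 g A)) := hs
  have hpos' : leF 𝓜 0 (A + ddc (HD.Pot b (tr 𝓜 g A))) := hpos
  have hB : IsHForm 𝓜 (A + ddc (HD.Pot b (tr 𝓜 g A))) := hA.add (isHForm_ddc hs')
  have hsm : 𝓜.Smooth (tr 𝓜 g A) := smooth_tr hg hA
  have hbd : ∀ y ∈ 𝓜.carrier, |tr 𝓜 g A y| ≤ (n : ℝ) := by
    intro y hy
    rw [abs_of_nonneg (tr_nonneg hg h0 hy)]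
    have := h1.tr_le hg hy
    rw [tr_self hg hy] at this
    simpa using this
  have hG : SubGauss 𝓜 g o (tr 𝓜 g A) :=
    hc_subGauss_of_bounded HD S ho (aestronglyMeasurable_hvol_of_continuousOn hsm.continuousOn) hbd
  have key := hc_leF_tr_smul hg hB hpos'
  intro Φ U hΦ z hz
  have hx := CMfd.mem_carrier hΦ hz
  have h2 := key Φ U hΦ z hz
  have h3 : tr 𝓜 g (A + ddc (HD.Pot b (tr 𝓜 g A))) (Φ z) = HD.P b (tr 𝓜 g A) (Φ z) := by
    have e1 := tr_add 𝓜 g A (ddc (HD.Pot b (tr 𝓜 g A))) (Φ z)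
    have e2 : tr 𝓜 g (ddc (HD.Pot b (tr 𝓜 g A))) (Φ z) = lap 𝓜 g (HD.Pot b (tr 𝓜 g A)) (Φ z) := rfl
    rw [e2, hc_lap_Pot HD S ho hsm hG hb hx] at e1
    have e3 : (A + ddc (HD.Pot b (tr 𝓜 g A)))
        = fun Φ z => A Φ z + ddc (HD.Pot b (tr 𝓜 g A)) Φ z := rfl
    rw [e3, e1]
    ring
  have h4 : smulF (tr 𝓜 g (A + ddc (HD.Pot b (tr 𝓜 g A)))) g Φ z
      = smulF (HD.P b (tr 𝓜 g A)) g Φ z := by
    simp only [smulF, h3]
  rw [← h4]
  exact h2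

end Claimed.Agent.R316
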