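import Claimed.Agent.R316.Base.LiYau.Reg
import Claimed.Agent.R316.Base.LiYau.MaxPr
import Claimed.Agent.R316.Base.LiYau.KarpLi
import Claimed.Agent.R316.Base.NiTam.Integ
import Claimed.Agent.R316.Base.NiTam.Sol
import Claimed.Agent.R316.Base.Metric.Api

/-!
# Row 316, Part C of `Base/Heat/Api.lean`, file 1: the bridge `HeatData → HeatCore`, basics, volume, the class `SubGauss`   (`HC-1`)

Sub-captain: helper225.  The statements `hc_X` are VERBATIM the statements `HeatData.X` of `Base/Heat/Api.lean` (which cites them).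

KEY TOOL: `hcCore HD S : HeatCore 𝓜 g` has `(hcCore HD S).Hk = HD.Hk` and `(hcCore HD S).P = HD.P` by `rfl`, so EVERY theorem `ly_*` of
`Base/LiYau/{Core,Mass,Diag,Gauss,Reg}.lean` (stated for an arbitrary `HeatCore`) applies to the kernel of an arbitrary `HeatData`:
`ly_duhamel`, `ly_P_le_of_super`, `ly_moment2`, `ly_expMoment`, `ly_tail`, `ly_integrable_subGauss`, `ly_far_bound`, `ly_far`, ...
-/

set_option autoImplicit false
set_option linter.unusedSectionVars false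
open scoped ContDiff ComplexOrder Topology
open MeasureTheory Filter

namespace Claimed.Agent.R316

variable {V : Type} [NormedAddCommGroup V] [NormedSpace ℝ V] [MeasurableSpace V] [BorelSpace V]
variable {n : ℕ}
variable [FiniteDimensional ℝ V]
variable {𝓜 : CMfd V (Fin n)} {g : HFam V (Fin n)}
variable (HD : HeatData 𝓜 g) {o x : V} {f f' : V → ℝ} {t s : ℝ}

include HD

theorem hc_Hk_nonneg (ht : 0 < t) (x y : V) : 0 ≤ HD.Hk t x y := by
  by_cases hx : x ∈ 𝓜.carrier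
  · by_cases hy : y ∈ 𝓜.carrier
    · exact (HD.pos t ht x hx y hy).le
    · exact (HD.off t x y (Or.inr hy)).ge
  · exact (HD.off t x y (Or.inl hx)).ge

/-- continuity of the kernel in the space variables. -/
theorem hc_continuousOn_Hk (ht : 0 < t) :
    ContinuousOn (fun p : V × V => HD.Hk t p.1 p.2) (𝓜.carrier ×ˢ 𝓜.carrier) :=
  HD.cont.comp (f := fun p : V × V => ((t, p.1, p.2) : ℝ × V × V))
    (by fun_prop) (fun p hp => ⟨ht, hp.1, hp.2⟩)

theorem hc_continuousOn_Hk_right (ht : 0 < t) (hx : x ∈ 𝓜.carrier) :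
    ContinuousOn (HD.Hk t x) 𝓜.carrier :=
  HD.cont.comp (f := fun y : V => ((t, x, y) : ℝ × V × V))
    (by fun_prop) (fun y hy => ⟨ht, hx, hy⟩)

theorem hc_continuousOn_Hk_left (ht : 0 < t) {y : V} (hy : y ∈ 𝓜.carrier) :
    ContinuousOn (fun x => HD.Hk t x y) 𝓜.carrier :=
  HD.cont.comp (f := fun x : V => ((t, x, y) : ℝ × V × V))
    (by fun_prop) (fun x hx => ⟨ht, hx, hy⟩)

theorem hc_measurable_Hk (ht : 0 < t) : Measurable fun p : V × V => HD.Hk t p.1 p.2 := by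
  classical
  have : ProperSpace V := FiniteDimensional.proper_real V
  have hs : MeasurableSet (𝓜.carrier ×ˢ 𝓜.carrier) :=
    𝓜.measurableSet_carrier.prod 𝓜.measurableSet_carrier
  have h1 := (hc_continuousOn_Hk HD ht).measurable_piecewise
    (g := fun _ => (0 : ℝ)) continuousOn_const hs
  convert h1 using 1
  funext p
  by_cases hp : p ∈ 𝓜.carrier ×ˢ 𝓜.carrier
  · rw [Set.piecewise_eq_of_mem _ _ _ hp]
  · rw [Set.piecewise_eq_of_notMem _ _ _ hp]
    apply HD.off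
    by_contra hcon
    push Not at hcon
    exact hp ⟨hcon.1, hcon.2⟩

theorem hc_measurable_Hk_right (ht : 0 < t) (x : V) : Measurable (HD.Hk t x) :=
  (hc_measurable_Hk HD ht).comp (measurable_const.prodMk measurable_id)

/-! ### volume -/

theorem hc_Vb_le (ho : o ∈ 𝓜.carrier) :
    ∃ C : ℝ, ∀ R : ℝ, 1 ≤ R → Vb 𝓜 g o R ≤ C * R ^ (2 * n) := by
  obtain ⟨C, -, h⟩ := nt_Vb_le HD.vol ho
  exact ⟨C, h⟩

theorem hc_Vb_le_Vb (S : AnaSetting 𝓜 g) : ∃ C : ℝ, ∀ x ∈ 𝓜.carrier, ∀ y ∈ 𝓜.carrier, ∀ r : ℝ, 0 < r →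
    Vb 𝓜 g x r ≤ C * (1 + hdist 𝓜 g x y / r) ^ (2 * n) * Vb 𝓜 g y r := by
  obtain ⟨C, -, h⟩ := ly_Vb_le_Vb S HD.vol
  exact ⟨C, h⟩

theorem hc_integrable_gauss0 (S : AnaSetting 𝓜 g) (ho : o ∈ 𝓜.carrier) {ε : ℝ} (hε : 0 < ε) :
    Integrable (fun y => Real.exp (-(ε * hdist 𝓜 g o y ^ 2))) (hvol 𝓜 g) := by
  have h := nt_subGauss_of_bounded S HD.vol ho (f := fun _ => (1 : ℝ)) continuousOn_const (A := 1)
    (fun y _ => by simp) ε hε
  simpa using h

theorem hc_integrable_gauss (S : AnaSetting 𝓜 g) (ho : o ∈ 𝓜.carrier) {ε : ℝ} (hε : 0 < ε) (A : ℝ) :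
    Integrable (fun y => Real.exp (A * hdist 𝓜 g o y - ε * hdist 𝓜 g o y ^ 2)) (hvol 𝓜 g) := by
  have hg : IsMetric 𝓜 g := S.kahler.toIsMetric
  have hd := measurable_hdist_right hg S.conn o
  have h1 := (hc_integrable_gauss0 HD S ho (half_pos hε)).const_mul (Real.exp (A ^ 2 / (2 * ε)))
  refine h1.mono' (Real.measurable_exp.comp
    ((hd.const_mul A).sub ((hd.pow_const 2).const_mul ε))).aestronglyMeasurable
    (Eventually.of_forall fun y => ?_)
  rw [Real.norm_eq_abs, abs_of_pos (Real.exp_pos _), ← Real.exp_add]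
  refine Real.exp_le_exp.2 ?_
  set d := hdist 𝓜 g o y
  have h2 : A * d ≤ A ^ 2 / (2 * ε) + ε / 2 * d ^ 2 := by
    have h3 : 0 ≤ (A / ε - d) ^ 2 * (ε / 2) := by positivity
    have h4 : (A / ε - d) ^ 2 * (ε / 2) = A ^ 2 / (2 * ε) + ε / 2 * d ^ 2 - A * d := by
      field_simp
      ring
    linarith
  linarith

/-! ### the class `SubGauss` -/

theorem hc_subGauss_of_growth (S : AnaSetting 𝓜 g) (ho : o ∈ 𝓜.carrier)
    (hf : AEStronglyMeasurable f (hvol 𝓜 g)) {A : ℝ}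
    (hA : ∀ y ∈ 𝓜.carrier, |f y| ≤ A * Real.exp (A * hdist 𝓜 g o y)) : SubGauss 𝓜 g o f := by
  have hg : IsMetric 𝓜 g := S.kahler.toIsMetric
  have hd := measurable_hdist_right hg S.conn o
  intro ε hε
  refine ((hc_integrable_gauss HD S ho hε A).const_mul A).mono'
    (hf.mul (Real.measurable_exp.comp ((hd.pow_const 2).const_mul ε).neg).aestronglyMeasurable)
    (ae_hvol_of_forall_mem fun y hy => ?_)
  rw [Real.norm_eq_abs, abs_mul, abs_of_pos (Real.exp_pos _), sub_eq_add_neg, Real.exp_add,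
    ← mul_assoc]
  exact mul_le_mul_of_nonneg_right (hA y hy) (Real.exp_pos _).le

theorem hc_subGauss_of_bounded (S : AnaSetting 𝓜 g) (ho : o ∈ 𝓜.carrier)
    (hf : AEStronglyMeasurable f (hvol 𝓜 g)) {A : ℝ} (hA : ∀ y ∈ 𝓜.carrier, |f y| ≤ A) :
    SubGauss 𝓜 g o f := by
  have hg : IsMetric 𝓜 g := S.kahler.toIsMetric
  have hd := measurable_hdist_right hg S.conn o
  intro ε hε
  refine ((hc_integrable_gauss0 HD S ho hε).const_mul A).mono'
    (hf.mul (Real.measurable_exp.comp ((hd.pow_const 2).const_mul ε).neg).aestronglyMeasurable)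
    (ae_hvol_of_forall_mem fun y hy => ?_)
  rw [Real.norm_eq_abs, abs_mul, abs_of_pos (Real.exp_pos _)]
  exact mul_le_mul_of_nonneg_right (hA y hy) (Real.exp_pos _).le

omit HD in
/-- **general annuli lemma**: `0 ≤ K y ≤ w ⌊d(o,y)/L⌋`, `∫_{B(o,(k+1)L)} f ≤ a k`, `∑ w k a k < ∞`. -/
theorem hc_integral_annuli (S : AnaSetting 𝓜 g) (o : V) {L : ℝ} (hL : 0 < L) {f K : V → ℝ}
    (hf : AEStronglyMeasurable f (hvol 𝓜 g)) (hK : AEStronglyMeasurable K (hvol 𝓜 g))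
    (hf0 : ∀ y ∈ 𝓜.carrier, 0 ≤ f y) (hK0 : ∀ y ∈ 𝓜.carrier, 0 ≤ K y) {w a : ℕ → ℝ}
    (hw0 : ∀ k, 0 ≤ w k) (hKw : ∀ y ∈ 𝓜.carrier, K y ≤ w ⌊hdist 𝓜 g o y / L⌋₊)
    (hint : ∀ k : ℕ, IntegrableOn f (hball 𝓜 g o (((k : ℝ) + 1) * L)) (hvol 𝓜 g))
    (ha : ∀ k : ℕ, ∫ y in hball 𝓜 g o (((k : ℝ) + 1) * L), f y ∂(hvol 𝓜 g) ≤ a k)
    (hs : Summable fun k => w k * a k) :
    Integrable (fun y => K y * f y) (hvol 𝓜 g) ∧
    ∫ y, K y * f y ∂(hvol 𝓜 g) ≤ ∑' k, w k * a k := by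
  have hm := S.kahler.toIsMetric
  have hms : ∀ k : ℕ, MeasurableSet (hball 𝓜 g o (((k : ℝ) + 1) * L)) :=
    fun k => measurableSet_hball hm S.conn o _
  have hfm : AEMeasurable (fun x => ENNReal.ofReal (f x)) (hvol 𝓜 g) :=
    ENNReal.measurable_ofReal.comp_aemeasurable hf.aemeasurable
  have ha0 : ∀ k, 0 ≤ a k := fun k => le_trans
    (integral_nonneg_of_ae (ae_restrict_of_ae (ae_hvol_of_forall_mem hf0))) (ha k)
  have hterm : ∀ k : ℕ, ∫⁻ x, ENNReal.ofReal (w k)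
      * (hball 𝓜 g o (((k : ℝ) + 1) * L)).indicator (fun x => ENNReal.ofReal (f x)) x ∂(hvol 𝓜 g)
      ≤ ENNReal.ofReal (w k * a k) := by
    intro k
    rw [lintegral_const_mul' _ _ ENNReal.ofReal_ne_top, lintegral_indicator (hms k),
      ← ofReal_integral_eq_lintegral_ofReal (hint k)
        (ae_restrict_of_ae (ae_hvol_of_forall_mem hf0)),
      ← ENNReal.ofReal_mul (hw0 k)]
    exact ENNReal.ofReal_le_ofReal (mul_le_mul_of_nonneg_left (ha k) (hw0 k))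
  have key : ∫⁻ x, ENNReal.ofReal (K x * f x) ∂(hvol 𝓜 g) ≤ ENNReal.ofReal (∑' k, w k * a k) := by
    calc ∫⁻ x, ENNReal.ofReal (K x * f x) ∂(hvol 𝓜 g)
        ≤ ∫⁻ x, ∑' k : ℕ, ENNReal.ofReal (w k)
          * (hball 𝓜 g o (((k : ℝ) + 1) * L)).indicator (fun x => ENNReal.ofReal (f x)) x
            ∂(hvol 𝓜 g) := by
          refine lintegral_mono_ae (ae_hvol_of_forall_mem fun x hx => ?_)
          have hr : 0 ≤ hdist 𝓜 g o x / L := div_nonneg (hdist_nonneg 𝓜 g o x) hL.le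
          refine le_trans ?_ (ENNReal.le_tsum ⌊hdist 𝓜 g o x / L⌋₊)
          have h2 : hdist 𝓜 g o x / L < (⌊hdist 𝓜 g o x / L⌋₊ : ℕ) + 1 := Nat.lt_floor_add_one _
          rw [div_lt_iff₀ hL] at h2
          rw [Set.indicator_of_mem (show x ∈ hball 𝓜 g o _ from ⟨hx, h2⟩),
            ← ENNReal.ofReal_mul (hw0 _)]
          exact ENNReal.ofReal_le_ofReal (mul_le_mul_of_nonneg_right (hKw x hx) (hf0 x hx))
      _ = ∑' k : ℕ, ∫⁻ x, ENNReal.ofReal (w k)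
          * (hball 𝓜 g o (((k : ℝ) + 1) * L)).indicator (fun x => ENNReal.ofReal (f x)) x
            ∂(hvol 𝓜 g) :=
          lintegral_tsum fun k => (hfm.indicator (hms k)).const_mul _
      _ ≤ ∑' k : ℕ, ENNReal.ofReal (w k * a k) := ENNReal.tsum_le_tsum hterm
      _ = ENNReal.ofReal (∑' k, w k * a k) := by
          rw [ENNReal.ofReal_tsum_of_nonneg (fun k => mul_nonneg (hw0 k) (ha0 k)) hs]
  have h0 : 0 ≤ᵐ[hvol 𝓜 g] fun y => K y * f y :=
    ae_hvol_of_forall_mem fun y hy => mul_nonneg (hK0 y hy) (hf0 y hy)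
  have hmeas := hK.mul hf
  refine ⟨⟨hmeas, ?_⟩, ?_⟩
  · rw [hasFiniteIntegral_iff_ofReal h0]
    exact lt_of_le_of_lt key ENNReal.ofReal_lt_top
  · rw [integral_eq_lintegral_of_nonneg_ae h0 hmeas]
    exact ENNReal.toReal_le_of_le_ofReal
      (tsum_nonneg fun k => mul_nonneg (hw0 k) (ha0 k)) key

theorem hc_subGauss_of_ball_integrals (S : AnaSetting 𝓜 g) (ho : o ∈ 𝓜.carrier)
    (hf : AEStronglyMeasurable f (hvol 𝓜 g)) {A : ℝ} {q : ℕ}
    (hA : ∀ R : ℝ, 1 ≤ R → IntegrableOn f (hball 𝓜 g o R) (hvol 𝓜 g) ∧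
      ∫ y in hball 𝓜 g o R, |f y| ∂(hvol 𝓜 g) ≤ A * R ^ q) : SubGauss 𝓜 g o f := by
  have hg : IsMetric 𝓜 g := S.kahler.toIsMetric
  have hd := measurable_hdist_right hg S.conn o
  intro ε hε
  have hKm : Measurable fun y => Real.exp (-(ε * hdist 𝓜 g o y ^ 2)) :=
    Real.measurable_exp.comp ((hd.pow_const 2).const_mul ε).neg
  have h1k : ∀ k : ℕ, (1 : ℝ) ≤ ((k : ℝ) + 1) * 1 := fun k => by
    have : (0 : ℝ) ≤ k := Nat.cast_nonneg k
    linarith
  have h := (hc_integral_annuli S o one_pos (f := fun y => |f y|)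
    (K := fun y => Real.exp (-(ε * hdist 𝓜 g o y ^ 2)))
    (w := fun k => Real.exp (-(ε * (k : ℝ) ^ 2))) (a := fun k => A * ((k : ℝ) + 1) ^ q)
    hf.norm hKm.aestronglyMeasurable
    (fun y _ => abs_nonneg _) (fun y _ => (Real.exp_pos _).le) (fun k => (Real.exp_pos _).le)
    (fun y _ => ?_) (fun k => ((hA _ (h1k k)).1).abs) (fun k => ?_) ?_).1
  · refine (h.mono' (hf.mul hKm.aestronglyMeasurable) (Eventually.of_forall fun y => ?_))
    rw [Real.norm_eq_abs, abs_mul, abs_of_pos (Real.exp_pos _), mul_comm]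
  · refine Real.exp_le_exp.2 ?_
    rw [div_one]
    have hr := hdist_nonneg 𝓜 g o y
    have h1 : ((⌊hdist 𝓜 g o y⌋₊ : ℕ) : ℝ) ≤ hdist 𝓜 g o y := Nat.floor_le hr
    have h3 : ((⌊hdist 𝓜 g o y⌋₊ : ℕ) : ℝ) ^ 2 ≤ hdist 𝓜 g o y ^ 2 :=
      pow_le_pow_left₀ (Nat.cast_nonneg _) h1 2
    nlinarith
  · have := (hA _ (h1k k)).2
    simpa only [mul_one] using this
  · refine ((nti_summable hε q).mul_left A).congr fun k => ?_
    ring

omit HD in
theorem hc_subGauss_base (S : AnaSetting 𝓜 g) (ho : o ∈ 𝓜.carrier) {o' : V} (ho' : o' ∈ 𝓜.carrier)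
    (hf : SubGauss 𝓜 g o f) : SubGauss 𝓜 g o' f :=
  ly_subGauss_base S ho ho' hf

/-! ### the bridge -/

/-- the kernel is bounded in one variable. -/
theorem hc_exists_Hk_le (ht : 0 < t) {y : V} (hy : y ∈ 𝓜.carrier) :
    ∃ B : ℝ, ∀ z : V, |HD.Hk t z y| ≤ B := by
  obtain ⟨C, c, hc, hup⟩ := HD.upper
  have hV : 0 < Vb 𝓜 g y (Real.sqrt t) := HD.vol.pos y hy _ (Real.sqrt_pos.2 ht)
  refine ⟨|C| / Vb 𝓜 g y (Real.sqrt t), fun z => ?_⟩
  rw [abs_of_nonneg (hc_Hk_nonneg HD ht z y)]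
  by_cases hz : z ∈ 𝓜.carrier
  · rw [HD.symm]
    refine (hup t ht y hy z hz).trans ?_
    have h1 : Real.exp (-(c * hdist 𝓜 g y z ^ 2 / t)) ≤ 1 := by
      apply Real.exp_le_one_iff.2
      have : 0 ≤ c * hdist 𝓜 g y z ^ 2 / t := by positivity
      linarith
    calc C / Vb 𝓜 g y (Real.sqrt t) * Real.exp (-(c * hdist 𝓜 g y z ^ 2 / t))
        ≤ |C| / Vb 𝓜 g y (Real.sqrt t) * Real.exp (-(c * hdist 𝓜 g y z ^ 2 / t)) :=
          mul_le_mul_of_nonneg_right (div_le_div_of_nonneg_right (le_abs_self C) hV.le)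
            (Real.exp_pos _).le
      _ ≤ |C| / Vb 𝓜 g y (Real.sqrt t) * 1 := mul_le_mul_of_nonneg_left h1 (by positivity)
      _ = _ := mul_one _
  · rw [HD.off t z y (Or.inl hz)]
    positivity

/-- `L²` functions are in the class `SubGauss`. -/
theorem hc_subGauss_of_memLp (S : AnaSetting 𝓜 g) (ho : o ∈ 𝓜.carrier)
    (hf : MemLp f 2 (hvol 𝓜 g)) : SubGauss 𝓜 g o f := by
  have hg : IsMetric 𝓜 g := S.kahler.toIsMetric
  have hd := measurable_hdist_right hg S.conn o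
  intro ε hε
  have hKm : Measurable fun y => Real.exp (-(ε * hdist 𝓜 g o y ^ 2)) :=
    Real.measurable_exp.comp ((hd.pow_const 2).const_mul ε).neg
  have h2 : MemLp (fun y => Real.exp (-(ε * hdist 𝓜 g o y ^ 2))) 2 (hvol 𝓜 g) := by
    rw [memLp_two_iff_integrable_sq hKm.aestronglyMeasurable]
    refine (hc_integrable_gauss0 HD S ho (ε := 2 * ε) (by positivity)).congr
      (Eventually.of_forall fun y => ?_)
    show _ = Real.exp (-(ε * hdist 𝓜 g o y ^ 2)) ^ 2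
    rw [← Real.exp_nat_mul]
    refine congrArg Real.exp ?_
    push_cast
    ring
  exact hf.integrable_mul h2

/-- test functions are in the class `SubGauss`. -/
theorem hc_subGauss_of_csupp (S : AnaSetting 𝓜 g) (ho : o ∈ 𝓜.carrier)
    (hf : ContinuousOn f 𝓜.carrier) (hc : 𝓜.CSupp f) : SubGauss 𝓜 g o f := by
  obtain ⟨C, hC⟩ := hc.exists_bound hf
  exact hc_subGauss_of_bounded HD S ho (aestronglyMeasurable_hvol_of_continuousOn hf) hC

/-- **the fields of `HeatData` contain a `HeatCore`** with the same kernel. -/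
noncomputable def hcCore (S : AnaSetting 𝓜 g) : HeatCore 𝓜 g where
  Hk := HD.Hk
  off := HD.off
  nonneg := fun _ ht x y => hc_Hk_nonneg HD ht x y
  symm := HD.symm
  cont := HD.cont
  integrable := HD.integrable
  submarkov := fun t ht x hx => (HD.mass t ht x hx).le
  semigroup := fun s t hs ht x hx y hy => by
    refine ⟨?_, HD.semigroup s t hs ht x hx y hy⟩
    obtain ⟨B, hB⟩ := hc_exists_Hk_le HD ht hy
    exact (HD.integrable s hs x hx).mul_bdd (c := B)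
      (aestronglyMeasurable_hvol_of_continuousOn (hc_continuousOn_Hk_left HD ht hy))
      (Eventually.of_forall fun z => by rw [Real.norm_eq_abs]; exact hB z)
  smooth := HD.smooth
  heat := HD.heat
  solL2 := fun f hf => by
    obtain ⟨o, ho⟩ := S.conn.nonempty
    obtain ⟨h1, h2⟩ := HD.sol o ho f (hc_subGauss_of_memLp HD S ho hf)
    exact ⟨h1, fun t ht x hx => (h2 t ht x hx).hasDerivWithinAt⟩
  test := fun f hf hc => by
    obtain ⟨o, ho⟩ := S.conn.nonempty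
    exact HD.init o ho f (hc_subGauss_of_csupp HD S ho hf.continuousOn hc) hf

theorem hcCore_Hk (S : AnaSetting 𝓜 g) : (hcCore HD S).Hk = HD.Hk := rfl

theorem hcCore_P (S : AnaSetting 𝓜 g) : (hcCore HD S).P = HD.P := rfl

theorem hc_integrable_Hk_mul (S : AnaSetting 𝓜 g) (ho : o ∈ 𝓜.carrier) (hf : SubGauss 𝓜 g o f)
    (ht : 0 < t) (hx : x ∈ 𝓜.carrier) : Integrable (fun y => HD.Hk t x y * f y) (hvol 𝓜 g) :=
  ly_integrable_subGauss (hcCore HD S) S ho hf ht hx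

omit HD in
/-- `|f|` is in the class. -/
theorem hc_subGauss_abs (hf : SubGauss 𝓜 g o f) : SubGauss 𝓜 g o (fun y => |f y|) := by
  intro ε hε
  refine ((hf ε hε).abs).congr (Eventually.of_forall fun y => ?_)
  show |f y * Real.exp (-(ε * hdist 𝓜 g o y ^ 2))| = |f y| * Real.exp (-(ε * hdist 𝓜 g o y ^ 2))
  rw [abs_mul, abs_of_pos (Real.exp_pos _)]

omit HD in
theorem hc_subGauss_add (hf : SubGauss 𝓜 g o f) (hf' : SubGauss 𝓜 g o f') :
    SubGauss 𝓜 g o (fun y => f y + f' y) := by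
  intro ε hε
  refine ((hf ε hε).add (hf' ε hε)).congr (Eventually.of_forall fun y => ?_)
  show f y * _ + f' y * _ = (f y + f' y) * _
  ring

omit HD in
theorem hc_subGauss_const_mul (c : ℝ) (hf : SubGauss 𝓜 g o f) :
    SubGauss 𝓜 g o (fun y => c * f y) := by
  intro ε hε
  refine ((hf ε hε).const_mul c).congr (Eventually.of_forall fun y => ?_)
  show c * (f y * _) = c * f y * _
  ring

omit HD in
/-- multiplication by a bounded measurable function. -/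
theorem hc_subGauss_bdd_mul (S : AnaSetting 𝓜 g) {φ : V → ℝ} (hφ : AEStronglyMeasurable φ (hvol 𝓜 g))
    {B : ℝ} (hB : ∀ y ∈ 𝓜.carrier, |φ y| ≤ B) (hf : SubGauss 𝓜 g o f) :
    SubGauss 𝓜 g o (fun y => φ y * f y) := by
  intro ε hε
  refine ((hf ε hε).bdd_mul (c := B) hφ (ae_hvol_of_forall_mem fun y hy => by
    rw [Real.norm_eq_abs]; exact hB y hy)).congr (Eventually.of_forall fun y => ?_)
  show φ y * (f y * _) = φ y * f y * _
  ring

/-- Gaussian weights are reproduced by the kernel: `∫ H_t(x,y) e^{-ε d(o,x)²} dx ≤ C e^{-ε' d(o,y)²}`. -/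
theorem hc_P_gauss_le (S : AnaSetting 𝓜 g) (ho : o ∈ 𝓜.carrier) (ht : 0 < t) {ε : ℝ} (hε : 0 < ε) :
    ∃ C ε' : ℝ, 0 < ε' ∧ ∀ y ∈ 𝓜.carrier,
      Integrable (fun x => HD.Hk t x y * Real.exp (-(ε * hdist 𝓜 g o x ^ 2))) (hvol 𝓜 g) ∧
      ∫ x, HD.Hk t x y * Real.exp (-(ε * hdist 𝓜 g o x ^ 2)) ∂(hvol 𝓜 g)
        ≤ C * Real.exp (-(ε' * hdist 𝓜 g o y ^ 2)) := by
  have hg : IsMetric 𝓜 g := S.kahler.toIsMetric
  have hd := measurable_hdist_right hg S.conn o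
  obtain ⟨C, hC, hexp⟩ := ly_expMoment (hcCore HD S) S
  set ε₁ : ℝ := min ε (1 / (4 * t)) with hε₁
  have hε₁0 : 0 < ε₁ := lt_min hε (by positivity)
  refine ⟨C, ε₁ / 2, by positivity, fun y hy => ?_⟩
  obtain ⟨hi, hle⟩ := hexp t ht y hy
  have hi' : Integrable (fun x => Real.exp (-(ε₁ / 2 * hdist 𝓜 g o y ^ 2)) *
      (HD.Hk t y x * Real.exp (hdist 𝓜 g y x ^ 2 / (4 * t)))) (hvol 𝓜 g) := hi.const_mul _
  have hpt : ∀ x ∈ 𝓜.carrier, HD.Hk t x y * Real.exp (-(ε * hdist 𝓜 g o x ^ 2)) ≤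
      Real.exp (-(ε₁ / 2 * hdist 𝓜 g o y ^ 2)) *
      (HD.Hk t y x * Real.exp (hdist 𝓜 g y x ^ 2 / (4 * t))) := by
    intro x hx
    rw [HD.symm t x y, mul_left_comm, ← Real.exp_add]
    refine mul_le_mul_of_nonneg_left (Real.exp_le_exp.2 ?_) (hc_Hk_nonneg HD ht y x)
    have h2 := hdist_triangle hg S.conn ho hx hy
    rw [hdist_comm hg x y] at h2
    have h3 := hdist_nonneg 𝓜 g o y
    have h4 := hdist_nonneg 𝓜 g o x
    have h5 := hdist_nonneg 𝓜 g y x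
    have h6 : hdist 𝓜 g o y ^ 2 ≤ 2 * hdist 𝓜 g o x ^ 2 + 2 * hdist 𝓜 g y x ^ 2 := by
      have : hdist 𝓜 g o y ^ 2 ≤ (hdist 𝓜 g o x + hdist 𝓜 g y x) ^ 2 :=
        pow_le_pow_left₀ h3 h2 2
      nlinarith [sq_nonneg (hdist 𝓜 g o x - hdist 𝓜 g y x)]
    have h7 : ε₁ * hdist 𝓜 g o x ^ 2 ≤ ε * hdist 𝓜 g o x ^ 2 :=
      mul_le_mul_of_nonneg_right (min_le_left _ _) (by positivity)
    have h8 : ε₁ * hdist 𝓜 g y x ^ 2 ≤ hdist 𝓜 g y x ^ 2 / (4 * t) := by
      have : ε₁ * hdist 𝓜 g y x ^ 2 ≤ 1 / (4 * t) * hdist 𝓜 g y x ^ 2 :=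
        mul_le_mul_of_nonneg_right (min_le_right _ _) (by positivity)
      calc _ ≤ _ := this
        _ = _ := by ring
    have h9 : ε₁ / 2 * hdist 𝓜 g o y ^ 2 ≤ ε₁ * hdist 𝓜 g o x ^ 2 + ε₁ * hdist 𝓜 g y x ^ 2 := by
      have := mul_le_mul_of_nonneg_left h6 (half_pos hε₁0).le
      calc _ ≤ _ := this
        _ = _ := by ring
    linarith
  have hKm : Measurable fun y => Real.exp (-(ε * hdist 𝓜 g o y ^ 2)) :=
    Real.measurable_exp.comp ((hd.pow_const 2).const_mul ε).neg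
  have hint : Integrable (fun x => HD.Hk t x y * Real.exp (-(ε * hdist 𝓜 g o x ^ 2))) (hvol 𝓜 g) := by
    refine hi'.mono' ((aestronglyMeasurable_hvol_of_continuousOn
      (hc_continuousOn_Hk_left HD ht hy)).mul hKm.aestronglyMeasurable)
      (ae_hvol_of_forall_mem fun x hx => ?_)
    rw [Real.norm_eq_abs, abs_of_nonneg (mul_nonneg (hc_Hk_nonneg HD ht x y) (Real.exp_pos _).le)]
    exact hpt x hx
  refine ⟨hint, ?_⟩
  calc ∫ x, HD.Hk t x y * Real.exp (-(ε * hdist 𝓜 g o x ^ 2)) ∂(hvol 𝓜 g)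
      ≤ ∫ x, Real.exp (-(ε₁ / 2 * hdist 𝓜 g o y ^ 2)) *
      (HD.Hk t y x * Real.exp (hdist 𝓜 g y x ^ 2 / (4 * t))) ∂(hvol 𝓜 g) :=
        integral_hvol_mono hint hi' hpt
    _ = Real.exp (-(ε₁ / 2 * hdist 𝓜 g o y ^ 2)) *
      ∫ x, (HD.Hk t y x * Real.exp (hdist 𝓜 g y x ^ 2 / (4 * t))) ∂(hvol 𝓜 g) :=
        integral_const_mul _ _
    _ ≤ Real.exp (-(ε₁ / 2 * hdist 𝓜 g o y ^ 2)) * C :=
        mul_le_mul_of_nonneg_left hle (Real.exp_pos _).le
    _ = _ := mul_comm _ _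

theorem hc_subGauss_P (S : AnaSetting 𝓜 g) (ho : o ∈ 𝓜.carrier) (hf : SubGauss 𝓜 g o f) (ht : 0 < t) :
    SubGauss 𝓜 g o (HD.P t f) := by
  have hg : IsMetric 𝓜 g := S.kahler.toIsMetric
  have hd := measurable_hdist_right hg S.conn o
  have := sigmaFinite_hvol hg
  intro ε hε
  obtain ⟨C, ε', hε', hP⟩ := hc_P_gauss_le HD S ho ht hε
  have hKm : Measurable fun y => Real.exp (-(ε * hdist 𝓜 g o y ^ 2)) :=
    Real.measurable_exp.comp ((hd.pow_const 2).const_mul ε).neg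
  have hfm := ly_subGauss_aesm S hf
  set G : V × V → ℝ := fun p => HD.Hk t p.1 p.2 * f p.2 * Real.exp (-(ε * hdist 𝓜 g o p.1 ^ 2))
    with hG
  have hGm : AEStronglyMeasurable G ((hvol 𝓜 g).prod (hvol 𝓜 g)) :=
    (((hc_measurable_Hk HD ht).aestronglyMeasurable).mul hfm.comp_snd).mul
      (hKm.comp measurable_fst).aestronglyMeasurable
  have hGi : Integrable G ((hvol 𝓜 g).prod (hvol 𝓜 g)) := by
    rw [integrable_prod_iff' hGm]
    constructor
    · refine ae_hvol_of_forall_mem fun y hy => ?_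
      refine ((hP y hy).1.mul_const (f y)).congr (Eventually.of_forall fun x => ?_)
      show _ = HD.Hk t x y * f y * Real.exp (-(ε * hdist 𝓜 g o x ^ 2))
      ring
    · have h1 : Integrable (fun y => C * (|f y| * Real.exp (-(ε' * hdist 𝓜 g o y ^ 2)))) (hvol 𝓜 g) :=
        ((hc_subGauss_abs hf) ε' hε').const_mul C
      refine h1.mono' hGm.norm.prod_swap.integral_prod_right' (ae_hvol_of_forall_mem fun y hy => ?_)
      rw [Real.norm_eq_abs, abs_of_nonneg (integral_nonneg fun x => norm_nonneg _)]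
      have e : ∀ x, ‖G (x, y)‖ = |f y| * (HD.Hk t x y * Real.exp (-(ε * hdist 𝓜 g o x ^ 2))) := by
        intro x
        rw [hG, Real.norm_eq_abs, abs_mul, abs_mul, abs_of_pos (Real.exp_pos _),
          abs_of_nonneg (hc_Hk_nonneg HD ht x y)]
        ring
      simp only [e]
      rw [integral_const_mul]
      calc |f y| * ∫ x, HD.Hk t x y * Real.exp (-(ε * hdist 𝓜 g o x ^ 2)) ∂(hvol 𝓜 g)
          ≤ |f y| * (C * Real.exp (-(ε' * hdist 𝓜 g o y ^ 2))) :=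
            mul_le_mul_of_nonneg_left (hP y hy).2 (abs_nonneg _)
        _ = _ := by ring
  refine hGi.integral_prod_left.congr (Eventually.of_forall fun x => ?_)
  show ∫ y, HD.Hk t x y * f y * Real.exp (-(ε * hdist 𝓜 g o x ^ 2)) ∂(hvol 𝓜 g) = _
  rw [integral_mul_const]
  rfl

end Claimed.Agent.R316
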