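import Claimed.Agent.R316.Base.Heat.C.Core
import Claimed.Agent.R316.B8M.Export

/-!
# Row 316, Part C of `Base/Heat/Api.lean`, file 2: the semigroup, moments, initial values, test functions   (`HC-2`, `HC-3`)

Sub-captain: helper225.  The statements `hc_X` are VERBATIM the statements `HeatData.X` of `Base/Heat/Api.lean` (which cites them).
Use `hcCore HD S : HeatCore 𝓜 g` (same kernel, `rfl`) to cite the theorems `ly_*`.

PLANS.
* `hc_P_P`: Fubini (`integral_integral_swap`); integrability on the product by `integrable_prod_iff'` from `HD.semigroup` and `hc_integrable_Hk_mul` for `|f|`; `sigmaFinite_hvol`.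
* `hc_tendsto_P`: `P_t f(x) - f(x₀) = ∫ H_t(x,y) (f y - f x₀) dy` (mass `1`); on `B(x₀,δ)`: `|f - f x₀| ≤ η`; off the ball the function `k = |f - f x₀| 1_{Bᶜ}` is `SubGauss` and vanishes on the ball:
  `ly_far (hcCore HD S) B8M.stLinLocalReg` gives the continuity of `(t,z) ↦ if t = 0 then 0 else P_t k (Φ z)` on `Ici 0 ×ˢ U`.
* `hc_lap_P_test`: `ly_duhamel_deriv` with `F r = f` (constant in time): `d/dr P_{T-r} f = - P_{T-r} Δf`; `HD.sol`: `d/dt P_t f = Δ P_t f`; uniqueness of the derivative.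
-/

set_option autoImplicit false
set_option linter.unusedSectionVars false
open scoped ContDiff ComplexOrder Topology
open MeasureTheory Filter

namespace Claimed.Agent.R316

variable {V : Type} [NormedAddCommGroup V] [NormedSpace ℝ V] [MeasurableSpace V] [BorelSpace V]
variable {n : ℕ}
variable [FiniteDimensional ℝ V]
variable {𝓜 : CMfd V (Fin n)} {g : HFam V (Fin n)}
variable (HD : HeatData 𝓜 g) {o x : V} {f f' : V → ℝ} {t s : ℝ}

include HD

theorem hc_isHeatSol_P (ho : o ∈ 𝓜.carrier) (hf : SubGauss 𝓜 g o f) :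
    IsHeatSol 𝓜 g (Set.Ioi 0) (fun t => HD.P t f) := by
  obtain ⟨h1, h2⟩ := HD.sol o ho f hf
  exact ⟨h1, fun t ht x hx => (h2 t ht x hx).hasDerivWithinAt⟩

theorem hc_P_const (ht : 0 < t) (hx : x ∈ 𝓜.carrier) (c : ℝ) : HD.P t (fun _ => c) x = c := by
  rw [HeatData.P, integral_mul_const, HD.mass t ht x hx, one_mul]

theorem hc_P_add (S : AnaSetting 𝓜 g) (ho : o ∈ 𝓜.carrier) (hf : SubGauss 𝓜 g o f)
    (hf' : SubGauss 𝓜 g o f') (ht : 0 < t) (hx : x ∈ 𝓜.carrier) :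
    HD.P t (fun y => f y + f' y) x = HD.P t f x + HD.P t f' x := by
  rw [HeatData.P, HeatData.P, HeatData.P,
    ← integral_add (hc_integrable_Hk_mul HD S ho hf ht hx) (hc_integrable_Hk_mul HD S ho hf' ht hx)]
  exact integral_congr_ae (Eventually.of_forall fun y => mul_add _ _ _)

theorem hc_P_smul (c : ℝ) : HD.P t (fun y => c * f y) x = c * HD.P t f x := by
  rw [HeatData.P, HeatData.P, ← integral_const_mul]
  exact integral_congr_ae (Eventually.of_forall fun y => by ring)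

theorem hc_P_sub (S : AnaSetting 𝓜 g) (ho : o ∈ 𝓜.carrier) (hf : SubGauss 𝓜 g o f)
    (hf' : SubGauss 𝓜 g o f') (ht : 0 < t) (hx : x ∈ 𝓜.carrier) :
    HD.P t (fun y => f y - f' y) x = HD.P t f x - HD.P t f' x := by
  rw [HeatData.P, HeatData.P, HeatData.P,
    ← integral_sub (hc_integrable_Hk_mul HD S ho hf ht hx) (hc_integrable_Hk_mul HD S ho hf' ht hx)]
  exact integral_congr_ae (Eventually.of_forall fun y => mul_sub _ _ _)

theorem hc_P_mono (S : AnaSetting 𝓜 g) (ho : o ∈ 𝓜.carrier) (hf : SubGauss 𝓜 g o f)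
    (hf' : SubGauss 𝓜 g o f') (hle : ∀ y ∈ 𝓜.carrier, f y ≤ f' y) (ht : 0 < t) (hx : x ∈ 𝓜.carrier) :
    HD.P t f x ≤ HD.P t f' x :=
  integral_hvol_mono (hc_integrable_Hk_mul HD S ho hf ht hx) (hc_integrable_Hk_mul HD S ho hf' ht hx)
    fun y hy => mul_le_mul_of_nonneg_left (hle y hy) (hc_Hk_nonneg HD ht x y)

theorem hc_P_nonneg (hf : ∀ y ∈ 𝓜.carrier, 0 ≤ f y) (ht : 0 < t) (x : V) :
    0 ≤ HD.P t f x :=
  integral_hvol_nonneg fun y hy => mul_nonneg (hc_Hk_nonneg HD ht x y) (hf y hy)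

/-- data which agree on the carrier. -/
theorem hc_P_congr (h : ∀ y ∈ 𝓜.carrier, f y = f' y) (t : ℝ) (x : V) : HD.P t f x = HD.P t f' x :=
  integral_hvol_congr fun y hy => by rw [h y hy]

/-- `|P_t f| ≤ P_t |f|`. -/
theorem hc_abs_P_le (ht : 0 < t) (x : V) : |HD.P t f x| ≤ HD.P t (fun y => |f y|) x := by
  refine (abs_integral_le_integral_abs).trans (le_of_eq ?_)
  exact integral_congr_ae (Eventually.of_forall fun y => by
    show |HD.Hk t x y * f y| = HD.Hk t x y * |f y|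
    rw [abs_mul, abs_of_nonneg (hc_Hk_nonneg HD ht x y)])

/-- bounded data. -/
theorem hc_abs_P_le_of_bdd (S : AnaSetting 𝓜 g) (hf : AEStronglyMeasurable f (hvol 𝓜 g)) {A : ℝ}
    (hA : ∀ y ∈ 𝓜.carrier, |f y| ≤ A) (ht : 0 < t) (hx : x ∈ 𝓜.carrier) : |HD.P t f x| ≤ A := by
  have h1 := hc_subGauss_of_bounded HD S hx hf hA
  have h2 := hc_subGauss_of_bounded HD S hx (f := fun _ => A) aestronglyMeasurable_const
    (A := |A|) (fun _ _ => le_rfl)
  calc |HD.P t f x| ≤ HD.P t (fun y => |f y|) x := hc_abs_P_le HD ht x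
    _ ≤ HD.P t (fun _ => A) x := hc_P_mono HD S hx (hc_subGauss_abs h1) h2 hA ht hx
    _ = A := hc_P_const HD ht hx A

theorem hc_P_P (S : AnaSetting 𝓜 g) (ho : o ∈ 𝓜.carrier) (hf : SubGauss 𝓜 g o f) (hs : 0 < s)
    (ht : 0 < t) (hx : x ∈ 𝓜.carrier) : HD.P s (HD.P t f) x = HD.P (s + t) f x := by
  have hg : IsMetric 𝓜 g := S.kahler.toIsMetric
  have := sigmaFinite_hvol hg
  have hfm := ly_subGauss_aesm S hf
  set G : V × V → ℝ := fun p => HD.Hk s x p.1 * (HD.Hk t p.1 p.2 * f p.2) with hG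
  have hGm : AEStronglyMeasurable G ((hvol 𝓜 g).prod (hvol 𝓜 g)) :=
    (((hc_measurable_Hk_right HD hs x).comp measurable_fst).aestronglyMeasurable).mul
      (((hc_measurable_Hk HD ht).aestronglyMeasurable).mul hfm.comp_snd)
  have hsg : ∀ y ∈ 𝓜.carrier, Integrable (fun z => HD.Hk s x z * HD.Hk t z y) (hvol 𝓜 g) :=
    fun y hy => ((hcCore HD S).semigroup s t hs ht x hx y hy).1
  have hGi : Integrable G ((hvol 𝓜 g).prod (hvol 𝓜 g)) := by
    rw [integrable_prod_iff' hGm]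
    constructor
    · refine ae_hvol_of_forall_mem fun y hy => ?_
      refine ((hsg y hy).mul_const (f y)).congr (Eventually.of_forall fun z => ?_)
      show _ = HD.Hk s x z * (HD.Hk t z y * f y)
      ring
    · have h1 := hc_integrable_Hk_mul HD S ho (hc_subGauss_abs hf) (add_pos hs ht) hx
      refine h1.congr (ae_hvol_of_forall_mem fun y hy => ?_)
      have e : ∀ z, ‖G (z, y)‖ = HD.Hk s x z * HD.Hk t z y * |f y| := by
        intro z
        rw [hG, Real.norm_eq_abs, abs_mul, abs_mul, abs_of_nonneg (hc_Hk_nonneg HD hs x z),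
          abs_of_nonneg (hc_Hk_nonneg HD ht z y)]
        ring
      simp only [e]
      rw [integral_mul_const, HD.semigroup s t hs ht x hx y hy]
  calc HD.P s (HD.P t f) x = ∫ z, ∫ y, G (z, y) ∂(hvol 𝓜 g) ∂(hvol 𝓜 g) := by
        refine integral_congr_ae (Eventually.of_forall fun z => ?_)
        show HD.Hk s x z * ∫ y, HD.Hk t z y * f y ∂(hvol 𝓜 g) = _
        rw [← integral_const_mul]
    _ = ∫ y, ∫ z, G (z, y) ∂(hvol 𝓜 g) ∂(hvol 𝓜 g) := integral_integral_swap hGi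
    _ = HD.P (s + t) f x := by
        refine integral_hvol_congr fun y hy => ?_
        have e : ∀ z, G (z, y) = HD.Hk s x z * HD.Hk t z y * f y := fun z => by
          rw [hG]; ring
        simp only [e]
        rw [integral_mul_const, HD.semigroup s t hs ht x hx y hy]

theorem hc_moment2 (S : AnaSetting 𝓜 g) : ∃ C : ℝ, ∀ a : ℝ, 0 < a → ∀ x ∈ 𝓜.carrier,
    Integrable (fun y => HD.Hk a x y * hdist 𝓜 g x y ^ 2) (hvol 𝓜 g) ∧
    ∫ y, HD.Hk a x y * hdist 𝓜 g x y ^ 2 ∂(hvol 𝓜 g) ≤ C * a :=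
  ⟨2 * n, fun _ ha _ hx => ly_moment2 (hcCore HD S) S ha hx⟩

theorem hc_moment1 (S : AnaSetting 𝓜 g) : ∃ C : ℝ, ∀ a : ℝ, 0 < a → ∀ x ∈ 𝓜.carrier,
    Integrable (fun y => HD.Hk a x y * hdist 𝓜 g x y) (hvol 𝓜 g) ∧
    ∫ y, HD.Hk a x y * hdist 𝓜 g x y ∂(hvol 𝓜 g) ≤ C * Real.sqrt a := by
  have hg : IsMetric 𝓜 g := S.kahler.toIsMetric
  refine ⟨(2 * n + 1) / 2, fun a ha x hx => ?_⟩
  obtain ⟨h1, h2⟩ : Integrable (fun y => HD.Hk a x y * hdist 𝓜 g x y ^ 2) (hvol 𝓜 g) ∧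
      ∫ y, HD.Hk a x y * hdist 𝓜 g x y ^ 2 ∂(hvol 𝓜 g) ≤ 2 * n * a :=
    ly_moment2 (hcCore HD S) S ha hx
  have hsa : 0 < Real.sqrt a := Real.sqrt_pos.2 ha
  have hi : Integrable (fun y => (1 / (2 * Real.sqrt a)) * (HD.Hk a x y * hdist 𝓜 g x y ^ 2)
      + Real.sqrt a / 2 * HD.Hk a x y) (hvol 𝓜 g) :=
    (h1.const_mul _).add ((HD.integrable a ha x hx).const_mul _)
  have hpt : ∀ y, HD.Hk a x y * hdist 𝓜 g x y ≤
      (1 / (2 * Real.sqrt a)) * (HD.Hk a x y * hdist 𝓜 g x y ^ 2)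
      + Real.sqrt a / 2 * HD.Hk a x y := by
    intro y
    set d := hdist 𝓜 g x y
    have h3 : d ≤ 1 / (2 * Real.sqrt a) * d ^ 2 + Real.sqrt a / 2 := by
      have h4 : 0 ≤ (d - Real.sqrt a) ^ 2 / (2 * Real.sqrt a) := by positivity
      have h5 : (d - Real.sqrt a) ^ 2 / (2 * Real.sqrt a)
          = 1 / (2 * Real.sqrt a) * d ^ 2 + Real.sqrt a / 2 - d := by
        field_simp
        ring
      linarith
    calc HD.Hk a x y * d ≤ HD.Hk a x y * (1 / (2 * Real.sqrt a) * d ^ 2 + Real.sqrt a / 2) :=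
          mul_le_mul_of_nonneg_left h3 (hc_Hk_nonneg HD ha x y)
      _ = _ := by ring
  have hint : Integrable (fun y => HD.Hk a x y * hdist 𝓜 g x y) (hvol 𝓜 g) := by
    refine hi.mono' ((hc_measurable_Hk_right HD ha x).mul
      (measurable_hdist_right hg S.conn x)).aestronglyMeasurable (Eventually.of_forall fun y => ?_)
    rw [Real.norm_eq_abs, abs_of_nonneg (mul_nonneg (hc_Hk_nonneg HD ha x y) (hdist_nonneg _ _ _ _))]
    exact hpt y
  refine ⟨hint, ?_⟩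
  calc ∫ y, HD.Hk a x y * hdist 𝓜 g x y ∂(hvol 𝓜 g)
      ≤ ∫ y, ((1 / (2 * Real.sqrt a)) * (HD.Hk a x y * hdist 𝓜 g x y ^ 2)
      + Real.sqrt a / 2 * HD.Hk a x y) ∂(hvol 𝓜 g) := integral_mono hint hi hpt
    _ = (1 / (2 * Real.sqrt a)) * (∫ y, HD.Hk a x y * hdist 𝓜 g x y ^ 2 ∂(hvol 𝓜 g))
      + Real.sqrt a / 2 * 1 := by
        rw [integral_add (h1.const_mul _) ((HD.integrable a ha x hx).const_mul _),
          integral_const_mul, integral_const_mul, HD.mass a ha x hx]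
    _ ≤ (1 / (2 * Real.sqrt a)) * (2 * n * a) + Real.sqrt a / 2 * 1 := by
        have := mul_le_mul_of_nonneg_left h2 (show 0 ≤ 1 / (2 * Real.sqrt a) by positivity)
        linarith
    _ = (2 * n + 1) / 2 * Real.sqrt a := by
        have h6 : a = Real.sqrt a * Real.sqrt a := (Real.mul_self_sqrt ha.le).symm
        have h7 : 1 / (2 * Real.sqrt a) * (2 * n * a) = n * Real.sqrt a := by
          rw [h6, Real.sqrt_mul_self hsa.le]
          field_simp
        rw [h7]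
        ring

/-- the solution with its initial value. -/
noncomputable def hcU (f : V → ℝ) (t : ℝ) (x : V) : ℝ := if t = 0 then f x else HD.P t f x

theorem hcU_zero (f : V → ℝ) : hcU HD f 0 = f := by
  funext x; simp [hcU]

theorem hcU_of_pos (f : V → ℝ) (ht : 0 < t) : hcU HD f t = HD.P t f := by
  funext x; simp [hcU, ht.ne']

/-- smooth data: a solution on `[0,∞)`, smooth up to `t = 0`. -/
theorem hc_isHeatSol_hcU (S : AnaSetting 𝓜 g) (ho : o ∈ 𝓜.carrier) (hf : SubGauss 𝓜 g o f)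
    (hs : 𝓜.Smooth f) {T : ℝ} (hT : 0 < T) : IsHeatSol 𝓜 g (Set.Icc 0 T) (hcU HD f) := by
  have hg : IsMetric 𝓜 g := S.kahler.toIsMetric
  refine nt_isHeatSol_of_Ioc hg hT ((HD.init o ho f hf hs).mono Set.Icc_subset_Ici_self) ?_
  intro t ht x hx
  have h1 := (HD.sol o ho f hf).2 t ht.1 x hx
  rw [hcU_of_pos HD f ht.1]
  refine (h1.congr_of_eventuallyEq ?_).hasDerivWithinAt
  filter_upwards [Ioi_mem_nhds ht.1] with s hs'
  rw [hcU_of_pos HD f hs']
  rfl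

/-- the far part tends to `0`. -/
theorem hc_tendsto_P_far (S : AnaSetting 𝓜 g) {x₀ : V} (hx₀ : x₀ ∈ 𝓜.carrier) {δ : ℝ} (hδ : 0 < δ)
    {k : V → ℝ} (hk : SubGauss 𝓜 g x₀ k) (h0 : ∀ y ∈ hball 𝓜 g x₀ δ, k y = 0) :
    Tendsto (fun p : ℝ × V => HD.P p.1 k p.2) (𝓝[Set.Ioi 0 ×ˢ 𝓜.carrier] (0, x₀)) (𝓝 0) := by
  obtain ⟨Φ, U, hΦ, ⟨z, hz, rfl⟩, hcd, -⟩ :=
    ly_far (hcCore HD S) B8M.stLinLocalReg S hx₀ hδ hk h0
  have h1 : ContinuousWithinAt
      (fun q : ℝ × CE (Fin n) => if q.1 = 0 then 0 else HD.P q.1 k (Φ q.2))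
      (Set.Ici 0 ×ˢ U) (0, z) := hcd.continuousOn (0, z) ⟨Set.self_mem_Ici, hz⟩
  have h1' : Tendsto (fun q : ℝ × CE (Fin n) => HD.P q.1 k (Φ q.2))
      (𝓝[Set.Ioi 0 ×ˢ U] (0, z)) (𝓝 0) := by
    have h3 := h1.mono (Set.prod_mono Set.Ioi_subset_Ici_self (le_refl U))
    have h4 : Tendsto (fun q : ℝ × CE (Fin n) => if q.1 = 0 then 0 else HD.P q.1 k (Φ q.2))
      (𝓝[Set.Ioi 0 ×ˢ U] (0, z)) (𝓝 0) := by simpa [ContinuousWithinAt] using h3
    refine h4.congr' (eventually_nhdsWithin_of_forall fun q hq => ?_)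
    have : q.1 ≠ 0 := ne_of_gt hq.1
    simp [this]
  have h2 : 𝓝[Set.Ioi 0 ×ˢ 𝓜.carrier] ((0 : ℝ), Φ z) =
      Filter.map (fun q : ℝ × CE (Fin n) => (q.1, Φ q.2)) (𝓝[Set.Ioi 0 ×ˢ U] (0, z)) := by
    rw [nhdsWithin_prod_eq, nhdsWithin_prod_eq, ← (𝓜.isParam hΦ).map_nhds_eq hz,
      (CMfd.isOpen_dom hΦ).nhdsWithin_eq hz]
    have := @Filter.prod_map_map_eq _ _ _ _ (𝓝[Set.Ioi 0] (0 : ℝ)) (𝓝 z) (fun s : ℝ => s) Φ
    rw [Filter.map_id'] at this
    exact this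
  rw [h2, Filter.tendsto_map'_iff]
  exact h1'

/-- initial values at a point of continuity. -/
theorem hc_tendsto_P (S : AnaSetting 𝓜 g) (ho : o ∈ 𝓜.carrier) (hf : SubGauss 𝓜 g o f) {x₀ : V}
    (hx₀ : x₀ ∈ 𝓜.carrier) (hc : ContinuousWithinAt f 𝓜.carrier x₀) :
    Tendsto (fun p : ℝ × V => HD.P p.1 f p.2) (𝓝[Set.Ioi 0 ×ˢ 𝓜.carrier] (0, x₀)) (𝓝 (f x₀)) := by
  classical
  have hg : IsMetric 𝓜 g := S.kahler.toIsMetric
  have hf₀ : SubGauss 𝓜 g x₀ f := ly_subGauss_base S ho hx₀ hf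
  rw [Metric.tendsto_nhds]
  intro η hη
  have hη2 : 0 < η / 2 := half_pos hη
  -- the ball
  have h1 : ∀ᶠ y in 𝓝[𝓜.carrier] x₀, dist (f y) (f x₀) < η / 2 :=
    (Metric.tendsto_nhds.1 hc) _ hη2
  obtain ⟨δ, hδ, hbl⟩ := (hasBasis_nhdsWithin_hball hg S.conn hx₀).mem_iff.1 h1
  set D : V → ℝ := fun y => |f y - f x₀| with hD
  have hcst : SubGauss 𝓜 g x₀ (fun _ => f x₀) :=
    hc_subGauss_of_bounded HD S hx₀ aestronglyMeasurable_const (A := |f x₀|) (fun _ _ => le_rfl)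
  have hsub : SubGauss 𝓜 g x₀ (fun y => f y - f x₀) := by
    have := hc_subGauss_add hf₀ (hc_subGauss_const_mul (-1) hcst)
    refine fun ε hε => (this ε hε).congr (Eventually.of_forall fun y => ?_)
    show (f y + -1 * f x₀) * _ = (f y - f x₀) * _
    ring
  have hDG : SubGauss 𝓜 g x₀ D := hc_subGauss_abs hsub
  set φ : V → ℝ := (hball 𝓜 g x₀ δ)ᶜ.indicator (fun _ => (1 : ℝ)) with hφ
  have hφm : Measurable φ :=
    measurable_const.indicator (measurableSet_hball hg S.conn x₀ δ).compl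
  have hφ1 : ∀ y, |φ y| ≤ 1 := by
    intro y
    by_cases hy : y ∈ (hball 𝓜 g x₀ δ)ᶜ
    · simp [hφ, Set.indicator_of_mem hy]
    · simp [hφ, Set.indicator_of_notMem hy]
  set k : V → ℝ := fun y => φ y * D y with hk
  have hkG : SubGauss 𝓜 g x₀ k :=
    hc_subGauss_bdd_mul S hφm.aestronglyMeasurable (fun y _ => hφ1 y) hDG
  have hk0 : ∀ y ∈ hball 𝓜 g x₀ δ, k y = 0 := by
    intro y hy
    have : y ∉ (hball 𝓜 g x₀ δ)ᶜ := fun h => h hy
    simp [hk, hφ, Set.indicator_of_notMem this]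
  have hle : ∀ y ∈ 𝓜.carrier, D y ≤ η / 2 + k y := by
    intro y _
    by_cases hy : y ∈ hball 𝓜 g x₀ δ
    · rw [hk0 y hy, add_zero]
      have := hbl hy
      rw [Set.mem_ofPred_eq, Real.dist_eq] at this
      exact this.le
    · have : y ∈ (hball 𝓜 g x₀ δ)ᶜ := hy
      simp only [hk, hφ, Set.indicator_of_mem this, one_mul]
      linarith
  have hfar := hc_tendsto_P_far HD S hx₀ hδ hkG hk0
  have h2 : ∀ᶠ p in 𝓝[Set.Ioi 0 ×ˢ 𝓜.carrier] ((0 : ℝ), x₀), dist (HD.P p.1 k p.2) 0 < η / 2 :=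
    (Metric.tendsto_nhds.1 hfar) _ hη2
  filter_upwards [h2, self_mem_nhdsWithin] with p hp hpm
  obtain ⟨ht, hx⟩ := hpm
  have ht' : 0 < p.1 := ht
  rw [Real.dist_eq, sub_zero] at hp
  rw [Real.dist_eq]
  have hη2G : SubGauss 𝓜 g x₀ (fun _ => η / 2) :=
    hc_subGauss_of_bounded HD S hx₀ aestronglyMeasurable_const (A := |η / 2|) (fun _ _ => le_rfl)
  have e1 : HD.P p.1 f p.2 - f x₀ = HD.P p.1 (fun y => f y - f x₀) p.2 := by
    rw [hc_P_sub HD S hx₀ hf₀ hcst ht' hx, hc_P_const HD ht' hx]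
  calc |HD.P p.1 f p.2 - f x₀| = |HD.P p.1 (fun y => f y - f x₀) p.2| := by rw [e1]
    _ ≤ HD.P p.1 D p.2 := hc_abs_P_le HD ht' p.2
    _ ≤ HD.P p.1 (fun y => η / 2 + k y) p.2 :=
        hc_P_mono HD S hx₀ hDG (hc_subGauss_add hη2G hkG) hle ht' hx
    _ = η / 2 + HD.P p.1 k p.2 := by
        rw [hc_P_add HD S hx₀ hη2G hkG ht' hx, hc_P_const HD ht' hx]
    _ < η := by
        have := (abs_lt.1 hp).2
        linarith

theorem hc_continuousOn_P (S : AnaSetting 𝓜 g) (ho : o ∈ 𝓜.carrier) (hf : SubGauss 𝓜 g o f)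
    (hc : ContinuousOn f 𝓜.carrier) :
    ContinuousOn (fun p : ℝ × V => if p.1 = 0 then f p.2 else HD.P p.1 f p.2)
      (Set.Ici 0 ×ˢ 𝓜.carrier) := by
  rintro ⟨t, x⟩ ⟨ht, hx⟩
  rcases eq_or_lt_of_le (show (0 : ℝ) ≤ t from ht) with h0 | h0
  · subst h0
    have hsplit : (Set.Ici (0 : ℝ) ×ˢ 𝓜.carrier) = ({0} ×ˢ 𝓜.carrier) ∪ (Set.Ioi 0 ×ˢ 𝓜.carrier) := by
      rw [← Set.union_prod, Set.union_comm, Set.Ioi_union_left]
    show Tendsto _ (𝓝[Set.Ici (0 : ℝ) ×ˢ 𝓜.carrier] (0, x)) (𝓝 _)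
    simp only [if_true]
    rw [hsplit, nhdsWithin_union]
    refine Tendsto.sup ?_ ?_
    · have h1 : Tendsto (fun p : ℝ × V => f p.2) (𝓝[{0} ×ˢ 𝓜.carrier] ((0 : ℝ), x)) (𝓝 (f x)) := by
        refine (hc x hx).tendsto.comp ?_
        refine tendsto_nhdsWithin_iff.2 ⟨?_, eventually_nhdsWithin_of_forall fun p hp => hp.2⟩
        exact (continuous_snd.tendsto ((0 : ℝ), x)).mono_left nhdsWithin_le_nhds
      refine h1.congr' (eventually_nhdsWithin_of_forall fun p hp => ?_)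
      have : p.1 = 0 := hp.1
      simp [this]
    · refine (hc_tendsto_P HD S ho hf hx (hc x hx)).congr'
        (eventually_nhdsWithin_of_forall fun p hp => ?_)
      have : p.1 ≠ 0 := ne_of_gt hp.1
      simp [this]
  · have h1 := (hc_isHeatSol_P HD ho hf).1.continuousOn (t, x) ⟨h0, hx⟩
    have hmem : Set.Ioi (0 : ℝ) ×ˢ 𝓜.carrier ∈ 𝓝[Set.Ici (0 : ℝ) ×ˢ 𝓜.carrier] (t, x) := by
      have h2 : (Set.Ioi (0 : ℝ) ×ˢ (Set.univ : Set V)) ∈ 𝓝 (t, x) :=
        prod_mem_nhds (Ioi_mem_nhds h0) univ_mem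
      filter_upwards [mem_nhdsWithin_of_mem_nhds h2, self_mem_nhdsWithin] with p hp hp'
      exact ⟨hp.1, hp'.2⟩
    have h3 := h1.mono_of_mem_nhdsWithin hmem
    refine h3.congr_of_eventuallyEq ?_ ?_
    · filter_upwards [hmem] with p hp
      have : p.1 ≠ 0 := ne_of_gt hp.1
      simp [this]
    · simp [h0.ne']

/-- consequence: `s ↦ P_s f (x)` is interval integrable on `[0,t]` and bounded. -/
theorem hc_intervalIntegrable_P (S : AnaSetting 𝓜 g) (ho : o ∈ 𝓜.carrier) (hf : SubGauss 𝓜 g o f)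
    (hc : ContinuousOn f 𝓜.carrier) (hx : x ∈ 𝓜.carrier) (t : ℝ) (ht : 0 ≤ t) :
    IntervalIntegrable (fun s => HD.P s f x) volume 0 t := by
  have h1 : ContinuousOn (fun s : ℝ => if s = 0 then f x else HD.P s f x) (Set.uIcc 0 t) := by
    refine (hc_continuousOn_P HD S ho hf hc).comp (f := fun s : ℝ => ((s, x) : ℝ × V))
      (by fun_prop) (fun s hs => ⟨?_, hx⟩)
    rw [Set.uIcc_of_le ht] at hs
    exact hs.1
  refine h1.intervalIntegrable.congr fun s hs => ?_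
  rw [Set.uIoc_of_le ht] at hs
  simp [hs.1.ne']

theorem hc_lap_P_test (S : AnaSetting 𝓜 g) (hf : 𝓜.Smooth f) (hc : 𝓜.CSupp f) (ht : 0 < t)
    (hx : x ∈ 𝓜.carrier) : lap 𝓜 g (HD.P t f) x = HD.P t (lap 𝓜 g f) x := by
  have hG := hc_subGauss_of_csupp HD S hx hf.continuousOn hc
  have h2t : 0 < 2 * t := by positivity
  have hmem : t ∈ Set.Ico 0 (2 * t) := ⟨ht.le, by linarith⟩
  have h1 := ly_duhamel_deriv (hcCore HD S) S h2t hx (F := fun _ => f)
    (hf.toST) (hc.toST _) hmem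
  have h1' : HasDerivAt (fun r => HD.P (2 * t - r) f x)
      (HD.P (2 * t - t) (heatOp 𝓜 g (Set.Icc 0 (2 * t)) (fun _ => f) t) x) t :=
    h1.hasDerivAt (Ico_mem_nhds ht (by linarith))
  have e1 : heatOp 𝓜 g (Set.Icc 0 (2 * t)) (fun _ => f) t = fun y => (-1) * lap 𝓜 g f y := by
    funext y
    rw [ly_heatOp_space]
    ring
  rw [e1, hc_P_smul, show 2 * t - t = t by ring] at h1'
  have h2 : HasDerivAt (fun s => HD.P s f x) (lap 𝓜 g (HD.P t f) x) (2 * t - t) := by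
    rw [show 2 * t - t = t by ring]
    exact (HD.sol x hx f hG).2 t ht x hx
  have h3 : HasDerivAt (fun r : ℝ => 2 * t - r) (-1) t := by
    simpa using (hasDerivAt_id t).const_sub (2 * t)
  have h4 := h2.scomp t h3
  have h5 := h4.unique h1'
  simp only [smul_eq_mul] at h5
  linarith

end Claimed.Agent.R316
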